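import Vale.Agent.P151.Basic

/-!
# One-edge recursion, Harris inequality, monotonicity in the parameter
-/

namespace Vale.Agent.P151

open Finset Vale.Agent.P165

open Classical in
/-- The indicator of a proposition. -/
noncomputable def ind (P : Prop) : ℝ := if P then 1 else 0

theorem ind_true {P : Prop} (h : P) : ind P = 1 := if_pos h

theorem ind_false {P : Prop} (h : ¬P) : ind P = 0 := if_neg h

theorem ind_nonneg (P : Prop) : 0 ≤ ind P := by
  by_cases h : P <;> simp [ind, h]

theorem ind_le_one (P : Prop) : ind P ≤ 1 := by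
  by_cases h : P <;> simp [ind, h]

theorem ind_mono {P Q : Prop} (h : P → Q) : ind P ≤ ind Q := by
  by_cases hP : P
  · rw [ind_true hP, ind_true (h hP)]
  · rw [ind_false hP]; exact ind_nonneg Q

theorem ind_and (P Q : Prop) : ind (P ∧ Q) = ind P * ind Q := by
  by_cases hP : P <;> by_cases hQ : Q <;> simp [ind, hP, hQ]

theorem ind_congr {P Q : Prop} (h : P ↔ Q) : ind P = ind Q :=
  le_antisymm (ind_mono h.1) (ind_mono h.2)

variable {α : Type} [DecidableEq α]

theorem avg_empty (p : ℝ) (f : Finset α → ℝ) : avg (∅ : Finset α) p f = f ∅ := by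
  simp [avg, wt]

theorem avg_insert {E : Finset α} {e : α} (he : e ∉ E) (p : ℝ) (f : Finset α → ℝ) :
    avg (insert e E) p f
      = p * avg E p (fun η => f (insert e η)) + (1 - p) * avg E p f := by
  rw [avg, powerset_insert, sum_union, avg, avg, mul_sum, mul_sum, add_comm]
  swap
  · refine disjoint_left.2 fun η h h' => ?_
    obtain ⟨η', -, rfl⟩ := mem_image.1 h'
    exact he (mem_powerset.1 h (mem_insert_self e η'))
  have hc : (insert e E).card = E.card + 1 := card_insert_of_notMem he
  congr 1
  · rw [sum_image]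
    · refine sum_congr rfl fun η hη => ?_
      have hηe : e ∉ η := fun h => he (mem_powerset.1 hη h)
      simp only [wt, hc, card_insert_of_notMem hηe, Nat.add_sub_add_right, pow_succ]
      ring
    · intro a ha b hb hab
      have ha' : e ∉ a := fun h => he (mem_powerset.1 ha h)
      have hb' : e ∉ b := fun h => he (mem_powerset.1 hb h)
      rw [← erase_insert ha', hab, erase_insert hb']
  · refine sum_congr rfl fun η hη => ?_
    have := card_le_card (mem_powerset.1 hη)
    simp only [wt, hc, show E.card + 1 - η.card = E.card - η.card + 1 by omega, pow_succ]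
    ring

theorem avg_nonneg (E : Finset α) {p : ℝ} (h0 : 0 ≤ p) (h1 : p ≤ 1) {f : Finset α → ℝ}
    (hf : ∀ η, η ⊆ E → 0 ≤ f η) : 0 ≤ avg E p f :=
  sum_nonneg fun η hη => mul_nonneg (wt_nonneg E h0 h1 η) (hf η (mem_powerset.1 hη))

theorem avg_le_one (E : Finset α) {p : ℝ} (h0 : 0 ≤ p) (h1 : p ≤ 1) {f : Finset α → ℝ}
    (hf : ∀ η, η ⊆ E → f η ≤ 1) : avg E p f ≤ 1 :=
  (avg_mono E h0 h1 (g := fun _ => 1) hf).trans (avg_one E p).le

theorem avg_sub (E : Finset α) (p : ℝ) (f g : Finset α → ℝ) :
    avg E p (fun η => f η - g η) = avg E p f - avg E p g := by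
  simp only [avg, mul_sub, sum_sub_distrib]

theorem avg_const (E : Finset α) (p c : ℝ) : avg E p (fun _ => c) = c := by
  have := avg_mul E p c (fun _ => 1)
  rw [avg_one, mul_one] at this
  simpa using this

theorem avg_abs_le_sqrt (E : Finset α) {p : ℝ} (h0 : 0 ≤ p) (h1 : p ≤ 1) (f : Finset α → ℝ)
    {B : ℝ} (hB : avg E p (fun η => f η ^ 2) ≤ B ^ 2) (hB0 : 0 < B) :
    avg E p (fun η => |f η|) ≤ B := by
  have h : avg E p (fun η => |f η|) ≤ avg E p (fun η => (2 * B)⁻¹ * f η ^ 2 + B / 2) := by
    refine avg_mono E h0 h1 fun η _ => ?_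
    have h2 : 0 < 2 * B := by linarith
    rw [← sub_nonneg, show (2 * B)⁻¹ * f η ^ 2 + B / 2 - |f η| = (|f η| - B) ^ 2 / (2 * B) from by
      rw [← sq_abs (f η)]; field_simp; ring]
    positivity
  rw [avg_add, avg_mul, avg_const] at h
  refine h.trans ?_
  have h3 : (2 * B)⁻¹ * avg E p (fun η => f η ^ 2) ≤ (2 * B)⁻¹ * B ^ 2 :=
    mul_le_mul_of_nonneg_left hB (by positivity)
  have h4 : (2 * B)⁻¹ * B ^ 2 = B / 2 := by field_simp
  linarith

/-- Harris' inequality. -/
theorem harris (E : Finset α) {p : ℝ} (h0 : 0 ≤ p) (h1 : p ≤ 1) {f g : Finset α → ℝ}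
    (hf : Monotone f) (hg : Monotone g) :
    avg E p f * avg E p g ≤ avg E p (fun η => f η * g η) := by
  induction E using Finset.induction_on generalizing f g with
  | empty => simp [avg_empty]
  | @insert e E he ih =>
    have hi : Monotone (fun η : Finset α => insert e η) := fun a b h => insert_subset_insert e h
    rw [avg_insert he, avg_insert he, avg_insert he]
    have a1 : avg E p f ≤ avg E p (fun η => f (insert e η)) :=
      avg_mono E h0 h1 fun η _ => hf (subset_insert e η)
    have b1 : avg E p g ≤ avg E p (fun η => g (insert e η)) :=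
      avg_mono E h0 h1 fun η _ => hg (subset_insert e η)
    have i1 := mul_le_mul_of_nonneg_left (ih (hf.comp hi) (hg.comp hi)) h0
    have i0 := mul_le_mul_of_nonneg_left (ih hf hg) (sub_nonneg.2 h1)
    simp only [Function.comp_def] at i1
    nlinarith [mul_nonneg (mul_nonneg h0 (sub_nonneg.2 h1))
      (mul_nonneg (sub_nonneg.2 a1) (sub_nonneg.2 b1))]

theorem avg_mono_param (E : Finset α) {p q : ℝ} (h0 : 0 ≤ p) (hpq : p ≤ q) (h1 : q ≤ 1)
    {f : Finset α → ℝ} (hf : Monotone f) : avg E p f ≤ avg E q f := by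
  induction E using Finset.induction_on generalizing f with
  | empty => simp [avg_empty]
  | @insert e E he ih =>
    have hi : Monotone (fun η : Finset α => insert e η) := fun a b h => insert_subset_insert e h
    rw [avg_insert he, avg_insert he]
    have a1 : avg E p f ≤ avg E p (fun η => f (insert e η)) :=
      avg_mono E h0 (hpq.trans h1) fun η _ => hf (subset_insert e η)
    have i1 := mul_le_mul_of_nonneg_left (ih (hf.comp hi)) (h0.trans hpq)
    have i0 := mul_le_mul_of_nonneg_left (ih hf) (sub_nonneg.2 h1)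
    simp only [Function.comp_def] at i1
    nlinarith [mul_nonneg (sub_nonneg.2 hpq) (sub_nonneg.2 a1)]

theorem continuous_avg (E : Finset α) (f : Finset α → ℝ) : Continuous fun p => avg E p f := by
  unfold avg wt
  fun_prop

/-- An edge that is forced open. -/
theorem avg_edge {E : Finset α} {e : α} (he : e ∈ E) (p : ℝ) (f : Finset α → ℝ) :
    avg E p f = p * avg (E.erase e) p (fun η => f (insert e η))
      + (1 - p) * avg (E.erase e) p f := by
  conv_lhs => rw [← insert_erase he]
  exact avg_insert (notMem_erase e E) p f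

theorem avg_erase {E : Finset α} (e : α) (p : ℝ) (f : Finset α → ℝ) :
    avg (E.erase e) p f = avg E p (fun η => f (η.erase e)) := by
  rw [← avg_restrict (erase_subset e E)]
  refine avg_congr E p fun η hη => ?_
  congr 1
  ext x
  simp only [mem_inter, mem_erase]
  exact ⟨fun h => ⟨h.2.1, h.1⟩, fun h => ⟨h.2, h.1, hη h.2⟩⟩

end Vale.Agent.P151
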