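import Vale.Agent.P165.Main

/-!
# Percolation on Cayley graphs: balls, translations, finite clusters
-/

namespace Vale.Agent.P151

open Finset Vale.Agent.P165

variable {Γ : Type} [Group Γ]

/-- The right Cayley graph of a set of generators. -/
def cayley (S : Finset Γ) : SimpleGraph Γ := SimpleGraph.fromRel fun x y => x⁻¹ * y ∈ S

/-- The neighbour in the direction of a generator. -/
def nb (S : Finset Γ) (x : Γ) (a : {a // a ∈ S}) : Γ := x * a.1

variable {S : Finset Γ}

/-- The standing hypotheses on the generators. -/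
structure Gens (S : Finset Γ) : Prop where
  inv : ∀ a ∈ S, a⁻¹ ∈ S
  one : (1 : Γ) ∉ S

theorem Gens.adj (hS : Gens S) {x y : Γ} : (cayley S).Adj x y ↔ x⁻¹ * y ∈ S := by
  rw [cayley, SimpleGraph.fromRel_adj]
  constructor
  · rintro ⟨-, h | h⟩
    · exact h
    · have := hS.inv _ h
      rwa [mul_inv_rev, inv_inv] at this
  · intro h
    refine ⟨?_, Or.inl h⟩
    rintro rfl
    rw [inv_mul_cancel] at h
    exact hS.one h

theorem Gens.labelling (hS : Gens S) : Labelling (cayley S) (nb S) where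
  inj v a b h := Subtype.ext (mul_left_cancel h)
  adj u v := by
    rw [hS.adj]
    refine ⟨fun h => ⟨⟨_, h⟩, ?_⟩, ?_⟩
    · simp [nb]
    · rintro ⟨a, rfl⟩
      simp [nb]

variable [DecidableEq Γ]

variable (S) in
/-- The ball around the identity. -/
def ball : ℕ → Finset Γ
  | 0 => {1}
  | R + 1 => ball R ∪ (ball R ×ˢ S).image fun q => q.1 * q.2

theorem one_mem_ball : ∀ R, (1 : Γ) ∈ ball S R
  | 0 => mem_singleton_self 1
  | R + 1 => mem_union_left _ (one_mem_ball R)

theorem ball_mono {R R' : ℕ} (h : R ≤ R') : ball S R ⊆ ball S R' := by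
  induction h with
  | refl => exact Subset.refl _
  | step _ ih => exact ih.trans subset_union_left

theorem mul_mem_ball_succ {R : ℕ} {x a : Γ} (hx : x ∈ ball S R) (ha : a ∈ S) :
    x * a ∈ ball S (R + 1) :=
  mem_union_right _ (mem_image.2 ⟨(x, a), mem_product.2 ⟨hx, ha⟩, rfl⟩)

theorem mem_ball_add {R : ℕ} {x : Γ} : ∀ {T : ℕ} {y : Γ}, x ∈ ball S R → y ∈ ball S T →
    x * y ∈ ball S (R + T)
  | 0, y, hx, hy => by
      rw [ball, mem_singleton] at hy
      simpa [hy] using hx
  | T + 1, y, hx, hy => by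
      rw [ball, mem_union] at hy
      rcases hy with hy | hy
      · exact ball_mono (by omega) (mem_ball_add hx hy)
      · obtain ⟨⟨z, a⟩, hq, rfl⟩ := mem_image.1 hy
        obtain ⟨hz, ha⟩ := mem_product.1 hq
        rw [← mul_assoc]
        exact mul_mem_ball_succ (mem_ball_add hx hz) ha

theorem inv_mem_ball (hS : Gens S) : ∀ {R : ℕ} {x : Γ}, x ∈ ball S R → x⁻¹ ∈ ball S R
  | 0, x, hx => by simp_all [ball]
  | R + 1, x, hx => by
      rw [ball, mem_union] at hx
      rcases hx with hx | hx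
      · exact ball_mono (Nat.le_succ R) (inv_mem_ball hS hx)
      · obtain ⟨⟨z, a⟩, hq, rfl⟩ := mem_image.1 hx
        obtain ⟨hz, ha⟩ := mem_product.1 hq
        rw [mul_inv_rev, Nat.add_comm R 1]
        refine mem_ball_add ?_ (inv_mem_ball hS hz)
        simpa using mul_mem_ball_succ (one_mem_ball (S := S) 0) (hS.inv _ ha)

theorem card_ball_le : ∀ R, (ball S R).card ≤ (S.card + 1) ^ R
  | 0 => by simp [ball]
  | R + 1 => by
      have h := card_ball_le R
      refine (card_union_le _ _).trans ?_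
      refine (Nat.add_le_add_left (card_image_le.trans (le_of_eq (card_product _ _))) _).trans ?_
      rw [pow_succ]
      nlinarith

theorem mem_ball_of_walk (hS : Gens S) {x y : Γ} (w : (cayley S).Walk x y) :
    x⁻¹ * y ∈ ball S w.length := by
  induction w with
  | nil => simp [ball]
  | @cons u v z h w ih =>
    have : u⁻¹ * z = u⁻¹ * v * (v⁻¹ * z) := by group
    rw [this, SimpleGraph.Walk.length_cons, Nat.add_comm]
    refine mem_ball_add ?_ ih
    simpa using mul_mem_ball_succ (one_mem_ball (S := S) 0) (hS.adj.1 h)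

/-- Translation of an edge set. -/
def shift (g : Γ) (η : Finset (Sym2 Γ)) : Finset (Sym2 Γ) := η.image (Sym2.map (g * ·))

theorem shift_shift (g h : Γ) (η : Finset (Sym2 Γ)) : shift g (shift h η) = shift (g * h) η := by
  rw [shift, shift, image_image, shift]
  refine image_congr fun e _ => ?_
  simp [Sym2.map_map, mul_assoc]

theorem shift_one (η : Finset (Sym2 Γ)) : shift 1 η = η := by
  simp [shift]

theorem shift_inter (g : Γ) (η η' : Finset (Sym2 Γ)) :
    shift g (η ∩ η') = shift g η ∩ shift g η' :=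
  image_inter _ _ (Sym2.map.injective (mul_right_injective g))

theorem mem_shift {g : Γ} {η : Finset (Sym2 Γ)} {e : Sym2 Γ} :
    Sym2.map (g * ·) e ∈ shift g η ↔ e ∈ η :=
  (Sym2.map.injective (mul_right_injective g)).mem_finset_image

theorem cl_shift_of {g x y : Γ} {η : Finset (Sym2 Γ)} (h : cl η x y) :
    cl (shift g η) (g * x) (g * y) := by
  refine h.map (⟨fun z => g * z, fun {u v} huv => ?_⟩ :
    SimpleGraph.fromEdgeSet (η : Set (Sym2 Γ)) →g SimpleGraph.fromEdgeSet (shift g η : Set (Sym2 Γ)))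
  rw [SimpleGraph.fromEdgeSet_adj] at huv ⊢
  exact ⟨(mem_shift (e := s(u, v))).2 huv.1, fun hc => huv.2 (mul_left_cancel hc)⟩

theorem cl_shift {g x y : Γ} {η : Finset (Sym2 Γ)} :
    cl (shift g η) (g * x) (g * y) ↔ cl η x y := by
  refine ⟨fun h => ?_, cl_shift_of⟩
  have := cl_shift_of (g := g⁻¹) h
  simpa [shift_shift, shift_one] using this

open Classical in
/-- The cluster of `x` in a finite edge set. -/
noncomputable def cls (η : Finset (Sym2 Γ)) (x : Γ) : Finset Γ :=
  (insert x (η.biUnion Sym2.toFinset)).filter (cl η x)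

omit [Group Γ] in
theorem mem_cls {η : Finset (Sym2 Γ)} {x y : Γ} : y ∈ cls η x ↔ cl η x y := by
  classical
  refine ⟨fun h => (mem_filter.1 h).2, fun h => mem_filter.2 ⟨?_, h⟩⟩
  by_cases hxy : y = x
  · exact hxy ▸ mem_insert_self _ _
  obtain ⟨w⟩ := h.symm
  cases w with
  | nil => exact absurd rfl hxy
  | cons hadj _ =>
    refine mem_insert_of_mem (mem_biUnion.2 ⟨_, ((SimpleGraph.fromEdgeSet_adj _).1 hadj).1, ?_⟩)
    simp

omit [Group Γ] in
theorem cls_eq {η : Finset (Sym2 Γ)} {x y : Γ} (h : cl η x y) : cls η x = cls η y := by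
  ext z
  rw [mem_cls, mem_cls]
  exact ⟨fun h' => h.symm.trans h', fun h' => h.trans h'⟩

omit [Group Γ] in
theorem cls_mono {η η' : Finset (Sym2 Γ)} (h : η ⊆ η') (x : Γ) : cls η x ⊆ cls η' x :=
  fun _ hy => mem_cls.2 (cl_mono h (mem_cls.1 hy))

omit [Group Γ] in
theorem self_mem_cls (η : Finset (Sym2 Γ)) (x : Γ) : x ∈ cls η x :=
  mem_cls.2 (SimpleGraph.Reachable.refl _)

/-- The size of the cluster of `x`. -/
noncomputable def csize (η : Finset (Sym2 Γ)) (x : Γ) : ℕ := (cls η x).card

omit [Group Γ] in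
theorem csize_pos (η : Finset (Sym2 Γ)) (x : Γ) : 0 < csize η x :=
  card_pos.2 ⟨x, self_mem_cls η x⟩

theorem cls_shift (g x : Γ) (η : Finset (Sym2 Γ)) :
    cls (shift g η) (g * x) = (cls η x).image (g * ·) := by
  ext z
  rw [mem_cls, mem_image]
  refine ⟨fun h => ⟨g⁻¹ * z, mem_cls.2 ?_, by simp⟩, ?_⟩
  · rw [← cl_shift (g := g)]
    simpa using h
  · rintro ⟨y, hy, rfl⟩
    exact cl_shift.2 (mem_cls.1 hy)

theorem csize_shift (g x : Γ) (η : Finset (Sym2 Γ)) :
    csize (shift g η) (g * x) = csize η x := by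
  rw [csize, cls_shift, card_image_of_injective _ (mul_right_injective g), csize]

variable (S) in
/-- The edges touching the ball of radius `R` around `x`. -/
def eball (x : Γ) (R : ℕ) : Finset (Sym2 Γ) := touch (nb S) ((ball S R).image (x * ·))

theorem eball_mono {x y : Γ} {R T : ℕ} {M : ℕ} (h : x⁻¹ * y ∈ ball S T) (hM : T + R ≤ M) :
    eball S y R ⊆ eball S x M := by
  intro e he
  obtain ⟨⟨z, a⟩, hz, rfl⟩ := mem_image.1 he
  obtain ⟨b, hb, rfl⟩ := mem_image.1 (mem_product.1 hz).1
  refine mem_touch (mem_image.2 ⟨x⁻¹ * y * b, ball_mono hM (mem_ball_add h hb), by group⟩) a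

theorem eball_one {x : Γ} {R M : ℕ} {T : ℕ} (h : x ∈ ball S T) (hM : T + R ≤ M) :
    eball S x R ⊆ eball S 1 M :=
  eball_mono (by simpa using h) hM

theorem shift_eball (g x : Γ) (R : ℕ) : shift g (eball S x R) = eball S (g * x) R := by
  ext e
  simp only [eball, touch, shift, mem_image, mem_product, mem_univ, and_true]
  constructor
  · rintro ⟨_, ⟨⟨z, a⟩, ⟨b, hb, rfl⟩, rfl⟩, rfl⟩
    exact ⟨(g * x * b, a), ⟨b, hb, rfl⟩, by simp [nb, mul_assoc]⟩
  · rintro ⟨⟨z, a⟩, ⟨b, hb, rfl⟩, rfl⟩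
    exact ⟨s(x * b, nb S (x * b) a), ⟨(x * b, a), ⟨b, hb, rfl⟩, rfl⟩, by simp [nb, mul_assoc]⟩

variable (S) in
/-- The edge sets of the graph. -/
def Valid (η : Finset (Sym2 Γ)) : Prop := ∀ e ∈ η, e ∈ (cayley S).edgeSet

theorem valid_eball (hS : Gens S) {x : Γ} {R : ℕ} {η : Finset (Sym2 Γ)} (h : η ⊆ eball S x R) :
    Valid S η := fun _ he => touch_adj hS.labelling.listing (h he)

theorem cls_subset_ball (hS : Gens S) {η : Finset (Sym2 Γ)} (hv : Valid S η) {x y : Γ}
    (hy : y ∈ cls η x) : x⁻¹ * y ∈ ball S (csize η x - 1) := by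
  classical
  obtain ⟨π, hπ⟩ := SimpleGraph.Reachable.exists_isPath (mem_cls.1 hy)
  have hsub : π.support.toFinset ⊆ cls η x := fun z hz =>
    mem_cls.2 ⟨π.takeUntil z (List.mem_toFinset.1 hz)⟩
  have hlen := card_le_card hsub
  rw [List.toFinset_card_of_nodup hπ.support_nodup, SimpleGraph.Walk.length_support] at hlen
  let f : SimpleGraph.fromEdgeSet (η : Set (Sym2 Γ)) →g cayley S :=
    ⟨id, fun {u v} h => hv _ ((SimpleGraph.fromEdgeSet_adj _).1 h).1⟩
  have h := mem_ball_of_walk hS (π.map f)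
  rw [SimpleGraph.Walk.length_map] at h
  exact ball_mono (by unfold csize; omega) h

/-- A small cluster only depends on the edges near it. -/
theorem cls_eq_of_small (hS : Gens S) {η η' : Finset (Sym2 Γ)} (hv : Valid S η) {x : Γ} {R : ℕ}
    (hsub : η' ⊆ η) (hin : η ∩ eball S x R ⊆ η') (hsmall : csize η' x ≤ R + 1) :
    cls η x = cls η' x := by
  classical
  refine Subset.antisymm (fun y hy => ?_) (cls_mono hsub x)
  obtain ⟨w⟩ := mem_cls.1 hy
  have : ∀ {u v : Γ} (w : (SimpleGraph.fromEdgeSet (η : Set (Sym2 Γ))).Walk u v),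
      u ∈ cls η' x → v ∈ cls η' x := by
    intro u v w
    induction w with
    | nil => exact id
    | @cons a b c hadj _ ih =>
      intro ha
      refine ih (mem_cls.2 ((mem_cls.1 ha).trans ?_))
      obtain ⟨h1, h2⟩ := (SimpleGraph.fromEdgeSet_adj _).1 hadj
      refine cl_edge h2 (hin (mem_inter.2 ⟨h1, ?_⟩))
      have hG := hS.adj.1 (hv _ h1 : (cayley S).Adj a b)
      have hab : a ∈ (ball S R).image (x * ·) := by
        refine mem_image.2 ⟨x⁻¹ * a, ball_mono (by omega) (cls_subset_ball hS ?_ ha), by group⟩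
        exact fun e he => hv e (hsub he)
      have := mem_touch (nb := nb S) hab ⟨_, hG⟩
      rwa [show nb S a ⟨_, hG⟩ = b by simp [nb]] at this
  exact this w (self_mem_cls η' x)

/-- A small cluster is seen inside a large enough ball. -/
theorem cls_inter (hS : Gens S) {η E : Finset (Sym2 Γ)} (hv : Valid S η) {x : Γ} {R : ℕ}
    (hE : η ∩ eball S x R ⊆ E) (hsmall : csize η x ≤ R + 1 ∨ csize (η ∩ E) x ≤ R + 1) :
    cls η x = cls (η ∩ E) x := by
  refine cls_eq_of_small hS hv inter_subset_left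
    (subset_inter inter_subset_left hE) ?_
  rcases hsmall with h | h
  · exact (card_le_card (cls_mono inter_subset_left x)).trans h
  · exact h

theorem le_csize_inter (hS : Gens S) {η E : Finset (Sym2 Γ)} (hv : Valid S η) {x : Γ} {R n : ℕ}
    (hn : n ≤ R + 1) (hE : η ∩ eball S x R ⊆ E) : n ≤ csize η x ↔ n ≤ csize (η ∩ E) x := by
  refine ⟨fun h => ?_, fun h => h.trans (card_le_card (cls_mono inter_subset_left x))⟩
  by_contra hc
  have := cls_inter hS hv hE (Or.inr (by omega))
  rw [csize, this] at h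
  exact hc h

theorem avg_restrict {α : Type} [DecidableEq α] {E A : Finset α} (hA : A ⊆ E) (p : ℝ)
    (f : Finset α → ℝ) : avg E p (fun η => f (η ∩ A)) = avg A p f := by
  have := avg_split hA p f fun _ => (1 : ℝ)
  simpa [avg_one] using this

theorem avg_image {α : Type} [DecidableEq α] {φ : α → α} (hφ : Function.Injective φ)
    (E : Finset α) (p : ℝ) (f : Finset α → ℝ) :
    avg (E.image φ) p f = avg E p (fun η => f (η.image φ)) := by
  rw [avg, powerset_image, sum_image fun a _ b _ h => image_injective hφ h]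
  exact sum_congr rfl fun η _ => by
    rw [wt, wt, card_image_of_injective _ hφ, card_image_of_injective _ hφ]

theorem avg_local {E : Finset (Sym2 Γ)} {x : Γ} {R : ℕ} (hE : eball S x R ⊆ E) (p : ℝ)
    {F : Finset (Sym2 Γ) → ℝ} (hF : ∀ η, η ⊆ E → F η = F (η ∩ eball S x R)) :
    avg E p F = avg (eball S 1 R) p (fun η => F (shift x η)) := by
  rw [avg_congr E p hF, avg_restrict hE, show eball S x R = (eball S 1 R).image (Sym2.map (x * ·))
    from by rw [← shift, shift_eball, mul_one], avg_image (Sym2.map.injective (mul_right_injective x))]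
  rfl

/-- Translation invariance for local events. -/
theorem avg_translate {E E' : Finset (Sym2 Γ)} {x y : Γ} {R : ℕ} (hE : eball S x R ⊆ E)
    (hE' : eball S y R ⊆ E') (p : ℝ) {F F' : Finset (Sym2 Γ) → ℝ}
    (hF : ∀ η, η ⊆ E → F η = F (η ∩ eball S x R))
    (hF' : ∀ η, η ⊆ E' → F' η = F' (η ∩ eball S y R))
    (h : ∀ η, η ⊆ eball S 1 R → F (shift x η) = F' (shift y η)) :
    avg E p F = avg E' p F' := by
  rw [avg_local hE p hF, avg_local hE' p hF']
  exact avg_congr _ _ h

end Vale.Agent.P151
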