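import Vale.Agent.P151.Walk

/-!
# Varopoulos-Carne via Chebyshev polynomials, and the speed on groups of slow growth
-/

namespace Vale.Agent.P151

open Finset Vale.Agent.P165

variable {Γ : Type} [Group Γ] [DecidableEq Γ] {S : Finset Γ}

variable (S) in
/-- The walk operator. -/
noncomputable def op (u : Γ → ℝ) (z : Γ) : ℝ := (∑ a : {a // a ∈ S}, u (nb S z a)) / S.card

theorem op_add (u v : Γ → ℝ) : op S (fun z => u z + v z) = fun z => op S u z + op S v z := by
  funext z
  simp [op, sum_add_distrib, add_div]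

theorem op_sub (u v : Γ → ℝ) : op S (fun z => u z - v z) = fun z => op S u z - op S v z := by
  funext z
  simp [op, sum_sub_distrib, sub_div]

theorem op_smul (c : ℝ) (u : Γ → ℝ) : op S (fun z => c * u z) = fun z => c * op S u z := by
  funext z
  simp [op, ← mul_sum, mul_div_assoc]

/-- A function living in a ball around the identity. -/
def Supp (S : Finset Γ) (u : Γ → ℝ) (R : ℕ) : Prop := ∀ z, z ∉ ball S R → u z = 0

theorem Supp.mono {u : Γ → ℝ} {R R' : ℕ} (h : Supp S u R) (hR : R ≤ R') : Supp S u R' :=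
  fun z hz => h z fun hz' => hz (ball_mono hR hz')

theorem Supp.op (hS : Gens S) {u : Γ → ℝ} {R : ℕ} (h : Supp S u R) :
    Supp S (Vale.Agent.P151.op S u) (R + 1) := by
  intro z hz
  rw [Vale.Agent.P151.op, sum_eq_zero, zero_div]
  intro a _
  refine h _ fun hmem => hz ?_
  simpa [nb] using mul_mem_ball_succ hmem (hS.inv _ a.2)

variable (S) in
/-- The first and second kind Chebyshev iterates at the identity. -/
noncomputable def cheb : ℕ → (Γ → ℝ) × (Γ → ℝ)
  | 0 => (fun z => if z = 1 then 1 else 0, fun _ => 0)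
  | j + 1 => (fun z => op S (cheb j).1 z - ((cheb j).2 z - op S (op S (cheb j).2) z),
      fun z => op S (cheb j).2 z + (cheb j).1 z)

theorem cheb_two (j : ℕ) (z : Γ) :
    (cheb S (j + 2)).1 z = 2 * op S (cheb S (j + 1)).1 z - (cheb S j).1 z := by
  simp only [cheb, op_sub, op_add]
  ring

theorem cheb_one_op (z : Γ) : (cheb S 1).1 z = op S (cheb S 0).1 z := by
  have h0 : op S (fun _ : Γ => (0 : ℝ)) = fun _ => 0 := by
    funext z; simp [op]
  simp [cheb, h0]

theorem cheb_supp_two (hS : Gens S) : ∀ j, Supp S (cheb S j).1 j ∧ Supp S (cheb S (j + 1)).1 (j + 1)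
  | 0 => by
      have h0 : Supp S (cheb S 0).1 0 := fun z hz => by
        simp only [ball, mem_singleton] at hz
        simp [cheb, hz]
      exact ⟨h0, fun z hz => (cheb_one_op z).trans (h0.op hS z hz)⟩
  | j + 1 => by
      obtain ⟨h1, h2⟩ := cheb_supp_two hS j
      refine ⟨h2, fun z hz => ?_⟩
      rw [cheb_two, h2.op hS z hz, h1.mono (by omega) z hz]
      ring

theorem cheb_supp_snd (hS : Gens S) : ∀ j, Supp S (cheb S j).2 j
  | 0 => fun z _ => rfl
  | j + 1 => fun z hz => by
      simp only [cheb]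
      rw [(cheb_supp_snd hS j).op hS z hz, (cheb_supp_two hS j).1.mono (Nat.le_succ j) z hz]
      simp

variable (S) in
/-- The inner product over a ball. -/
noncomputable def dot (R : ℕ) (u v : Γ → ℝ) : ℝ := ∑ z ∈ ball S R, u z * v z

theorem dot_op (hS : Gens S) {R : ℕ} {u v : Γ → ℝ} (hu : Supp S u R) (hv : Supp S v R) :
    dot S R u (op S v) = dot S R (op S u) v := by
  have hform := form_comm hS.labelling (ball S R) u v hu hv
  have e : ∀ f g : Γ → ℝ, dot S R f (op S g) = form (nb S) (ball S R) f g / S.card := by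
    intro f g
    simp only [dot, op, form, ← mul_div_assoc, mul_sum, ← sum_div]
  rw [e, hform, ← e]
  exact sum_congr rfl fun z _ => mul_comm _ _

theorem dot_op_le (hS : Gens S) (hne : S.Nonempty) {R : ℕ} {u : Γ → ℝ} (hu : Supp S u R) :
    dot S R (op S u) (op S u) ≤ dot S R u u := by
  have hd : (0 : ℝ) < S.card := by exact_mod_cast hne.card_pos
  have hpt : ∀ z, op S u z * op S u z ≤ (∑ a : {a // a ∈ S}, u (nb S z a) ^ 2) / S.card := by
    intro z
    rw [op, div_mul_div_comm, div_le_div_iff₀ (by positivity) hd]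
    have h := sq_sum_le_card_mul_sum_sq (s := (univ : Finset {a // a ∈ S}))
      (f := fun a => u (nb S z a))
    rw [card_univ, Fintype.card_coe] at h
    nlinarith
  refine (sum_le_sum fun z _ => hpt z).trans ?_
  rw [← sum_div, div_le_iff₀ hd, sum_comm]
  have key : ∀ a : {a // a ∈ S}, ∑ z ∈ ball S R, u (nb S z a) ^ 2 ≤ dot S R u u := by
    intro a
    calc ∑ z ∈ ball S R, u (nb S z a) ^ 2
        = ∑ w ∈ (ball S R).image (fun z => nb S z a), u w ^ 2 :=
          (sum_image (f := fun w => u w ^ 2) (g := fun z => nb S z a)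
            fun x _ y _ h => mul_right_cancel h).symm
      _ = ∑ w ∈ ((ball S R).image (fun z => nb S z a)).filter (· ∈ ball S R), u w ^ 2 := by
          rw [sum_filter]
          refine sum_congr rfl fun w _ => ?_
          by_cases h : w ∈ ball S R
          · rw [if_pos h]
          · rw [if_neg h, hu w h]; ring
      _ ≤ ∑ w ∈ ball S R, u w ^ 2 :=
          sum_le_sum_of_subset_of_nonneg (fun w hw => (mem_filter.1 hw).2) fun _ _ _ => sq_nonneg _
      _ = _ := sum_congr rfl fun w _ => sq (u w)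
  refine (sum_le_sum fun a _ => key a).trans (le_of_eq ?_)
  rw [sum_const, card_univ, Fintype.card_coe, nsmul_eq_mul, mul_comm]

theorem cheb_energy (hS : Gens S) (R : ℕ) : ∀ j, j + 2 ≤ R →
    dot S R (cheb S j).1 (cheb S j).1 + dot S R (cheb S j).2 (cheb S j).2
      - dot S R (op S (cheb S j).2) (op S (cheb S j).2) = 1
  | 0, _ => by
      have h0 : op S (fun _ : Γ => (0 : ℝ)) = fun _ => 0 := by
        funext z; simp [op]
      simp [dot, cheb, h0, one_mem_ball]
  | j + 1, hj => by
      have ih := cheb_energy hS R j (by omega)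
      set T := (cheb S j).1 with hT
      set U := (cheb S j).2 with hU
      have sT : Supp S T j := (cheb_supp_two hS j).1
      have sU : Supp S U j := cheb_supp_snd hS j
      have e2 : op S (cheb S (j + 1)).2 = fun z => op S (op S U) z + op S T z := op_add _ _
      have i1 := dot_op hS ((sT.mono (Nat.le_succ j)).mono (by omega : j + 1 ≤ R))
        (sU.mono (by omega : j ≤ R))
      have i2 := dot_op hS (u := op S U) ((sU.op hS).mono (by omega : j + 1 ≤ R))
        (sU.mono (by omega : j ≤ R))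
      rw [e2]
      simp only [cheb, ← hT, ← hU, dot] at ih i1 i2 ⊢
      simp only [mul_add, add_mul, mul_sub, sub_mul, sum_add_distrib, sum_sub_distrib] at ih i1 i2 ⊢
      have c1 : ∀ f g : Γ → ℝ, ∑ z ∈ ball S R, f z * g z = ∑ z ∈ ball S R, g z * f z :=
        fun f g => sum_congr rfl fun z _ => mul_comm _ _
      linarith [c1 (op S T) U, c1 (op S (op S U)) U, c1 (op S U) T, c1 (op S (op S U)) (op S T)]

theorem cheb_entry (hS : Gens S) (hne : S.Nonempty) (j : ℕ) (z : Γ) : |(cheb S j).1 z| ≤ 1 := by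
  by_cases hz : z ∈ ball S j
  swap
  · rw [(cheb_supp_two hS j).1 z hz, abs_zero]; exact zero_le_one
  have he := cheb_energy hS (j + 2) j le_rfl
  have hop := dot_op_le hS hne ((cheb_supp_snd hS j).mono (by omega : j ≤ j + 2))
  have h1 : (cheb S j).1 z * (cheb S j).1 z ≤ dot S (j + 2) (cheb S j).1 (cheb S j).1 :=
    single_le_sum (f := fun w => (cheb S j).1 w * (cheb S j).1 w)
      (fun w _ => mul_self_nonneg _) (ball_mono (by omega) hz)
  rw [abs_le]
  constructor <;> nlinarith

theorem cheb_far (hS : Gens S) {z : Γ} {D j : ℕ} (hz : z ∉ ball S D) (hj : j ≤ D) :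
    (cheb S j).1 z = 0 :=
  (cheb_supp_two hS j).1 z fun h => hz (ball_mono hj h)

variable (S) in
/-- Chebyshev iterates indexed by integers. -/
noncomputable def chebZ (i : ℤ) : Γ → ℝ := (cheb S i.natAbs).1

theorem op_chebZ (i : ℤ) (z : Γ) :
    op S (chebZ S i) z = (chebZ S (i + 1) z + chebZ S (i - 1) z) / 2 := by
  rcases eq_or_ne i 0 with rfl | hi
  · have e1 : ((0 : ℤ) + 1).natAbs = 1 := rfl
    have e2 : ((0 : ℤ) - 1).natAbs = 1 := rfl
    simp only [chebZ, e1, e2, Int.natAbs_zero]
    rw [cheb_one_op]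
    ring
  · obtain ⟨m, hm⟩ : ∃ m, i.natAbs = m + 1 := ⟨i.natAbs - 1, by omega⟩
    have h : ((i + 1).natAbs = m + 2 ∧ (i - 1).natAbs = m) ∨
        ((i + 1).natAbs = m ∧ (i - 1).natAbs = m + 2) := by omega
    rcases h with ⟨a, b⟩ | ⟨a, b⟩ <;> simp only [chebZ, a, b, hm] <;> rw [cheb_two] <;> ring

theorem iterate_op_add (n : ℕ) : ∀ (u v : Γ → ℝ),
    (op S)^[n] (fun z => u z + v z) = fun z => (op S)^[n] u z + (op S)^[n] v z := by
  induction n with
  | zero => intro u v; rfl
  | succ n ih => intro u v; rw [Function.iterate_succ_apply, op_add, ih]; rfl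

theorem iterate_op_smul (n : ℕ) : ∀ (c : ℝ) (u : Γ → ℝ),
    (op S)^[n] (fun z => c * u z) = fun z => c * (op S)^[n] u z := by
  induction n with
  | zero => intro c u; rfl
  | succ n ih => intro c u; rw [Function.iterate_succ_apply, op_smul, ih]; rfl

theorem iterate_bound (hS : Gens S) (hne : S.Nonempty) {z : Γ} {D : ℕ} (hz : z ∉ ball S D)
    {l : ℝ} (hl : 0 ≤ l) : ∀ (n : ℕ) (i : ℤ), |(op S)^[n] (chebZ S i) z|
      ≤ 2 * Real.cosh l ^ n * Real.cosh (l * i) * Real.exp (-l * D)
  | 0, i => by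
      rw [Function.iterate_zero_apply, pow_zero, mul_one]
      have hpos := Real.cosh_pos (x := l * (i : ℝ))
      by_cases hi : i.natAbs ≤ D
      · rw [chebZ, cheb_far hS hz hi, abs_zero]; positivity
      refine (cheb_entry hS hne _ z).trans ?_
      have h1 : Real.exp (l * (i.natAbs : ℝ)) ≤ 2 * Real.cosh (l * i) := by
        rw [← Real.cosh_abs (l * i), abs_mul, abs_of_nonneg hl, Nat.cast_natAbs, Int.cast_abs,
          Real.cosh_eq]
        have := Real.exp_pos (-(l * |(i : ℝ)|))
        linarith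
      have h2 : Real.exp (l * D) ≤ 2 * Real.cosh (l * i) :=
        (Real.exp_le_exp.2 (mul_le_mul_of_nonneg_left
          (by exact_mod_cast (by omega : D ≤ i.natAbs)) hl)).trans h1
      have := mul_le_mul_of_nonneg_right h2 (Real.exp_pos (-l * D)).le
      rw [← Real.exp_add, show l * (D : ℝ) + -l * D = 0 by ring, Real.exp_zero] at this
      exact this
  | n + 1, i => by
      have e : op S (chebZ S i) = fun w => (1 / 2) * (chebZ S (i + 1) w + chebZ S (i - 1) w) := by
        funext w; rw [op_chebZ]; ring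
      have e2 : (op S)^[n + 1] (chebZ S i) z
          = (1 / 2) * ((op S)^[n] (chebZ S (i + 1)) z + (op S)^[n] (chebZ S (i - 1)) z) := by
        rw [Function.iterate_succ_apply, e,
          iterate_op_smul n (1 / 2) (fun w => chebZ S (i + 1) w + chebZ S (i - 1) w), iterate_op_add]
      rw [e2, abs_mul, abs_of_pos (by norm_num : (0 : ℝ) < 1 / 2)]
      have a1 := iterate_bound hS hne hz hl n (i + 1)
      have a2 := iterate_bound hS hne hz hl n (i - 1)
      refine (mul_le_mul_of_nonneg_left ((abs_add_le _ _).trans (add_le_add a1 a2))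
        (by norm_num)).trans (le_of_eq ?_)
      push_cast
      rw [pow_succ, mul_add l, mul_sub l, mul_one, Real.cosh_add, Real.cosh_sub]
      ring

theorem iterate_eq_step : ∀ (n : ℕ) (z : Γ),
    (op S)^[n] (chebZ S 0) z = step S n z 1
  | 0, z => by simp [chebZ, cheb, step, walkCount, eq_comm]
  | n + 1, z => by
      rw [Function.iterate_succ_apply']
      simp only [op, iterate_eq_step n, step, ← sum_div, walkCount]
      rw [div_div, pow_succ]

/-- The Varopoulos-Carne bound. -/
theorem carne (hS : Gens S) (hne : S.Nonempty) {n D : ℕ} (hn : 1 ≤ n) {y : Γ}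
    (hy : y ∉ ball S D) :
    step S n 1 y ≤ 2 * Real.exp (-(D : ℝ) ^ 2 / (2 * n)) := by
  have hn' : (0 : ℝ) < n := by exact_mod_cast hn
  set l : ℝ := (D : ℝ) / n with hl
  have h := iterate_bound hS hne hy (by positivity : 0 ≤ l) n 0
  rw [iterate_eq_step] at h
  have hsym : step S n (1 : Γ) y = step S n y 1 := by
    rw [step, step, walkCount_symm hS]
  rw [hsym]
  refine (le_abs_self _).trans (h.trans ?_)
  rw [Int.cast_zero, mul_zero, Real.cosh_zero, mul_one, mul_assoc]
  refine mul_le_mul_of_nonneg_left ?_ (by norm_num)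
  have hc : Real.cosh l ^ n ≤ Real.exp (n * (l ^ 2 / 2)) := by
    rw [Real.exp_nat_mul]
    exact pow_le_pow_left₀ (Real.cosh_pos (x := l)).le (Real.cosh_le_exp_half_sq l) n
  refine (mul_le_mul_of_nonneg_right hc (Real.exp_pos _).le).trans (le_of_eq ?_)
  rw [← Real.exp_add]
  congr 1
  rw [hl]
  field_simp
  ring

/-- On groups with slow growth the walk is slow. -/
theorem speed_of_growth (hS : Gens S) (hne : S.Nonempty) {C β : ℝ} (hβ0 : 0 < β) (hβ : β < 2)
    (hgrowth : ∀ r : ℕ, 1 ≤ r → ((ball S r).card : ℝ) ≤ Real.exp (C * (r : ℝ) ^ β)) :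
    ∃ A : ℝ, 0 < A ∧ ∀ k : ℕ, 1 ≤ k →
      1 / 2 ≤ ∑ y ∈ ball S ⌊A * (k : ℝ) ^ (1 / (2 - β))⌋₊, step S (2 * k) 1 y := by
  set s := 1 / (2 - β) with hs
  set e := 2 * s - 1 with he
  have h2 : (0 : ℝ) < 2 - β := by linarith
  have hs0 : 0 < s := by rw [hs]; positivity
  have he0 : 0 < e := by
    rw [he, hs, mul_one_div, sub_pos, lt_div_iff₀ h2]; linarith
  set A := 1 + (32 * |C|) ^ s + 8 * (1 / e + Real.log 8) with hA
  have hl8 : 0 < Real.log 8 := Real.log_pos (by norm_num)
  have hC0 : 0 ≤ (32 * |C|) ^ s := by positivity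
  have hA1 : 1 ≤ A := by
    have : 0 < 1 / e := by positivity
    linarith
  have hA8 : 8 * (1 / e + Real.log 8) ≤ A := by linarith
  have hAC : 32 * |C| ≤ A ^ (2 - β) := by
    have h : ((32 * |C|) ^ s) ^ (2 - β) ≤ A ^ (2 - β) :=
      Real.rpow_le_rpow hC0 (by have : 0 < 1 / e := (by positivity); linarith) h2.le
    rwa [← Real.rpow_mul (by positivity), hs, one_div_mul_cancel h2.ne', Real.rpow_one] at h
  refine ⟨A + 1, by linarith, fun k hk => ?_⟩
  have hk1 : (1 : ℝ) ≤ k := by exact_mod_cast hk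
  have hk0 : (0 : ℝ) < k := by linarith
  have hks : 1 ≤ (k : ℝ) ^ s := Real.one_le_rpow hk1 hs0.le
  set x := A * (k : ℝ) ^ s with hx
  set r := ⌊(A + 1) * (k : ℝ) ^ s⌋₊ with hr
  have hxr : x ≤ (r : ℝ) := by
    have := Nat.lt_floor_add_one ((A + 1) * (k : ℝ) ^ s)
    rw [← hr, add_mul, one_mul] at this
    linarith
  have hx1 : 1 ≤ x := one_le_mul_of_one_le_of_one_le hA1 hks
  set n := 2 * k with hn
  set T := Real.exp (-(A * (k : ℝ) ^ e / 8)) with hT
  have hxk : x ^ 2 / (8 * k) = A ^ 2 * (k : ℝ) ^ e / 8 := by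
    rw [hx, he, mul_pow, Real.rpow_sub hk0, Real.rpow_one, two_mul s, Real.rpow_add hk0]
    field_simp
  have hfar : ∀ i : ℕ, ∑ y ∈ ball S (r + i + 1) \ ball S (r + i), step S n 1 y ≤ 2 * T := by
    intro i
    refine (sum_le_sum fun y hy => carne hS hne (show 1 ≤ n by omega) (mem_sdiff.1 hy).2).trans ?_
    rw [sum_const, nsmul_eq_mul]
    refine (mul_le_mul_of_nonneg_right ((Nat.cast_le.2 (card_le_card sdiff_subset)).trans
      (hgrowth (r + i + 1) (by omega))) (by positivity)).trans ?_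
    rw [mul_left_comm, ← Real.exp_add]
    refine mul_le_mul_of_nonneg_left (Real.exp_le_exp.2 ?_) (by norm_num)
    set ρ : ℝ := ((r + i : ℕ) : ℝ) with hρ
    have hρx : x ≤ ρ := by
      rw [hρ]; push_cast; linarith [Nat.cast_nonneg (α := ℝ) i]
    have hρ1 : 1 ≤ ρ := hx1.trans hρx
    have hρ0 : 0 < ρ := by linarith
    have hb : C * ((r + i + 1 : ℕ) : ℝ) ^ β ≤ |C| * (4 * ρ ^ β) := by
      refine (mul_le_mul_of_nonneg_right (le_abs_self C) (by positivity)).trans
        (mul_le_mul_of_nonneg_left ?_ (abs_nonneg C))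
      calc ((r + i + 1 : ℕ) : ℝ) ^ β ≤ (2 * ρ) ^ β :=
            Real.rpow_le_rpow (by positivity) (by rw [hρ] at hρ1 ⊢; push_cast at hρ1 ⊢; linarith) hβ0.le
        _ = 2 ^ β * ρ ^ β := Real.mul_rpow (by norm_num) hρ0.le
        _ ≤ 4 * ρ ^ β := by
            refine mul_le_mul_of_nonneg_right ?_ (by positivity)
            refine (Real.rpow_le_rpow_of_exponent_le (by norm_num) hβ.le).trans ?_
            rw [Real.rpow_two]; norm_num
    have hpow : 32 * |C| * k ≤ ρ ^ (2 - β) := by
      refine le_trans ?_ (Real.rpow_le_rpow (by linarith) hρx h2.le)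
      rw [hx, Real.mul_rpow (by linarith) (by positivity), ← Real.rpow_mul hk0.le, hs,
        one_div_mul_cancel h2.ne', Real.rpow_one]
      exact mul_le_mul_of_nonneg_right hAC hk0.le
    have hmain : |C| * (4 * ρ ^ β) ≤ ρ ^ 2 / (8 * k) := by
      rw [le_div_iff₀ (by positivity)]
      have e1 : ρ ^ (2 - β) * ρ ^ β = ρ ^ 2 := by
        rw [← Real.rpow_add hρ0, sub_add_cancel, Real.rpow_two]
      have := mul_le_mul_of_nonneg_right hpow (Real.rpow_nonneg hρ0.le β)
      rw [e1] at this
      linarith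
    have hρsq : x ^ 2 / (8 * k) ≤ ρ ^ 2 / (8 * k) :=
      div_le_div_of_nonneg_right (pow_le_pow_left₀ (by linarith) hρx 2) (by positivity)
    have hAA : A * (k : ℝ) ^ e ≤ A ^ 2 * (k : ℝ) ^ e :=
      mul_le_mul_of_nonneg_right (le_self_pow₀ hA1 (by norm_num)) (by positivity)
    have hsplit : -ρ ^ 2 / (2 * ((n : ℕ) : ℝ)) = -(ρ ^ 2 / (8 * k)) - ρ ^ 2 / (8 * k) := by
      rw [hn]; push_cast; field_simp; ring
    rw [hsplit]
    rw [hxk] at hρsq
    linarith
  have hnn : ∀ y, 0 ≤ step S n (1 : Γ) y := fun y =>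
    div_nonneg (walkCount_nonneg _ _ _ _) (by positivity)
  have hann : ∀ m : ℕ, ∑ y ∈ ball S (r + m), step S n 1 y
      ≤ ∑ y ∈ ball S r, step S n 1 y + (m : ℝ) * (2 * T) := by
    intro m
    induction m with
    | zero => simp
    | succ m ih =>
      rw [← add_assoc, ← sum_sdiff (ball_mono (Nat.le_succ (r + m)))]
      push_cast
      linarith [hfar m]
  have htotal : ∑ y ∈ ball S (r + n), step S n 1 y = 1 := by
    simp only [step]
    rw [← sum_div, walkCount_sum n (fun b hb => by rw [one_mul]; exact ball_mono (by omega) hb)]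
    have hd : (0 : ℝ) < S.card := by exact_mod_cast hne.card_pos
    exact div_self (pow_ne_zero _ hd.ne')
  have hsmall : (n : ℝ) * (2 * T) ≤ 1 / 2 := by
    have hlog : Real.log (8 * k) ≤ A * (k : ℝ) ^ e / 8 := by
      rw [Real.log_mul (by norm_num) hk0.ne']
      have l1 := Real.log_le_rpow_div hk0.le he0
      have l2 : Real.log 8 ≤ Real.log 8 * (k : ℝ) ^ e :=
        le_mul_of_one_le_right hl8.le (Real.one_le_rpow hk1 he0.le)
      have l3 := mul_le_mul_of_nonneg_right hA8 (Real.rpow_nonneg hk0.le e)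
      have l4 : (k : ℝ) ^ e / e = 1 / e * (k : ℝ) ^ e := by ring
      linarith
    have h8 : 8 * (k : ℝ) * T ≤ 1 := by
      rw [hT, ← Real.exp_log (by positivity : (0 : ℝ) < 8 * k), ← Real.exp_add, Real.exp_le_one_iff]
      linarith
    rw [hn]; push_cast
    linarith
  have := hann n
  rw [htotal] at this
  linarith

end Vale.Agent.P151
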