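import Vale.Agent.P151.Avg

/-!
# The cluster tail, and its decay below the percolation threshold
-/

namespace Vale.Agent.P151

open Finset Vale.Agent.P165 MeasureTheory

variable {Γ : Type} [Group Γ] [DecidableEq Γ] {S : Finset Γ}

variable (S) in
/-- The probability that the cluster of the identity has at least `n` vertices. -/
noncomputable def tail (p : ℝ) (n : ℕ) : ℝ :=
  avg (eball S 1 n) p fun η => ind (n ≤ csize η 1)

omit [Group Γ] in
theorem monotone_big (n : ℕ) (x : Γ) :
    Monotone fun η : Finset (Sym2 Γ) => ind (n ≤ csize η x) :=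
  fun _ _ h => ind_mono fun hn => hn.trans (card_le_card (cls_mono h x))

theorem tail_eq (hS : Gens S) {E : Finset (Sym2 Γ)} (hE : Valid S E) {x : Γ} {n : ℕ}
    (hsub : eball S x n ⊆ E) (p : ℝ) :
    avg E p (fun η => ind (n ≤ csize η x)) = tail S p n := by
  have hloc : ∀ η, η ⊆ E → ind (n ≤ csize η x) = ind (n ≤ csize (η ∩ eball S x n) x) :=
    fun η hη => ind_congr (le_csize_inter hS (fun e he => hE e (hη he)) (by omega) inter_subset_right)
  rw [avg_local hsub p hloc, tail]
  refine avg_congr _ _ fun η _ => ind_congr ?_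
  have := csize_shift x 1 η
  rw [mul_one] at this
  rw [this]

theorem tail_nonneg {p : ℝ} (h0 : 0 ≤ p) (h1 : p ≤ 1) (n : ℕ) : 0 ≤ tail S p n :=
  avg_nonneg _ h0 h1 fun _ _ => ind_nonneg _

theorem tail_le_one {p : ℝ} (h0 : 0 ≤ p) (h1 : p ≤ 1) (n : ℕ) : tail S p n ≤ 1 :=
  avg_le_one _ h0 h1 fun _ _ => ind_le_one _

theorem tail_antitone (hS : Gens S) {p : ℝ} (h0 : 0 ≤ p) (h1 : p ≤ 1) {m n : ℕ} (h : m ≤ n) :
    tail S p n ≤ tail S p m := by
  have hv : Valid S (eball S (1 : Γ) n) := valid_eball hS (Subset.refl _)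
  rw [← tail_eq (n := m) hS hv (eball_mono (x := (1 : Γ)) (y := 1) (T := 0) (by simp [ball]) (by omega)) p, tail]
  exact avg_mono _ h0 h1 fun η _ => ind_mono fun hn => h.trans hn

theorem tail_mono_param {p q : ℝ} (h0 : 0 ≤ p) (hpq : p ≤ q) (h1 : q ≤ 1) (n : ℕ) :
    tail S p n ≤ tail S q n :=
  avg_mono_param _ h0 hpq h1 (monotone_big n 1)

omit [Group Γ] in
/-- The part of a walk after its last visit to a set. -/
theorem last_exit {η D : Finset (Sym2 Γ)} (C : Set Γ) (hD : ∀ e ∈ D, ∃ v ∈ C, v ∈ e) {u y : Γ}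
    (w : (SimpleGraph.fromEdgeSet (η : Set (Sym2 Γ))).Walk u y) (hy : y ∉ C) :
    (u ∉ C ∧ cl (η \ D) u y) ∨
      ∃ a b, a ∈ C ∧ b ∉ C ∧ a ≠ b ∧ s(a, b) ∈ η ∧ cl (η \ D) b y := by
  induction w with
  | nil => exact Or.inl ⟨hy, SimpleGraph.Reachable.refl _⟩
  | @cons u v y hadj w ih =>
    obtain ⟨h1, h2⟩ := (SimpleGraph.fromEdgeSet_adj _).1 hadj
    rcases ih hy with ⟨hv, hcl⟩ | h
    · by_cases hu : u ∈ C
      · exact Or.inr ⟨u, v, hu, hv, h2, h1, hcl⟩
      · refine Or.inl ⟨hu, (cl_edge h2 (mem_sdiff.2 ⟨h1, fun hd => ?_⟩)).trans hcl⟩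
        obtain ⟨z, hz, hze⟩ := hD _ hd
        rcases Sym2.mem_iff.1 hze with rfl | rfl
        · exact hu hz
        · exact hv hz
    · exact Or.inr h

theorem shift_inE (hS : Gens S) (x : Γ) (T : Finset Γ) :
    shift x (inE (nb S) T) = inE (nb S) (T.image (x * ·)) := by
  ext e
  constructor
  · intro he
    obtain ⟨f, hf, rfl⟩ := mem_image.1 he
    induction f using Sym2.ind with
    | h a b =>
      have hG : (cayley S).Adj a b := touch_adj hS.labelling.listing (mem_filter.1 hf).1
      refine mem_inE hS.labelling (mem_image_of_mem _ (inE_mem hf (Sym2.mem_mk_left a b)))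
        (mem_image_of_mem _ (inE_mem hf (Sym2.mem_mk_right a b))) ?_
      rw [hS.adj] at hG ⊢
      simpa [mul_assoc] using hG
  · intro he
    induction e using Sym2.ind with
    | h a b =>
      obtain ⟨a', ha', rfl⟩ := mem_image.1 (inE_mem he (Sym2.mem_mk_left a b))
      obtain ⟨b', hb', hb⟩ := mem_image.1 (inE_mem he (Sym2.mem_mk_right (x * a') b))
      subst hb
      have hG : (cayley S).Adj (x * a') (x * b') := touch_adj hS.labelling.listing (mem_filter.1 he).1
      refine mem_image.2 ⟨s(a', b'), mem_inE hS.labelling ha' hb' ?_, rfl⟩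
      rw [hS.adj] at hG ⊢
      simpa [mul_assoc] using hG

omit [Group Γ] in
theorem cls_inter_touch (nbr : Γ → {a // a ∈ S} → Γ) {η D : Finset (Sym2 Γ)} {x : Γ}
    {A : Finset Γ} (hedge : ∀ a b, a ∈ A → s(a, b) ∈ η → s(a, b) ∈ touch nbr A)
    (hD : D = touch nbr A) : cls η x = A ↔ cls (η ∩ D) x = A := by
  constructor
  · intro h
    refine Subset.antisymm ((cls_mono inter_subset_left x).trans h.le) fun z hz => ?_
    rw [← h] at hz
    obtain ⟨w⟩ := mem_cls.1 hz
    refine mem_cls.2 (cl_of_walk w fun e he => ?_)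
    induction e using Sym2.ind with
    | h a b =>
      have h1 := w.edges_subset_edgeSet he
      rw [SimpleGraph.edgeSet_fromEdgeSet] at h1
      refine mem_inter.2 ⟨h1.1, hD ▸ hedge a b ?_ h1.1⟩
      rw [← h]
      exact mem_cls.2 ⟨w.takeUntil a (w.fst_mem_support_of_mem_edges he)⟩
  · intro h
    refine Subset.antisymm (fun z hz => ?_) (h ▸ cls_mono inter_subset_left x)
    obtain ⟨w⟩ := mem_cls.1 hz
    have : ∀ {u v : Γ} (w : (SimpleGraph.fromEdgeSet (η : Set (Sym2 Γ))).Walk u v),
        u ∈ A → v ∈ A := by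
      intro u v w
      induction w with
      | nil => exact id
      | @cons a b c hadj _ ih =>
        intro ha
        refine ih ?_
        obtain ⟨h1, h2⟩ := (SimpleGraph.fromEdgeSet_adj _).1 hadj
        rw [← h] at ha ⊢
        refine mem_cls.2 ((mem_cls.1 ha).trans (cl_edge h2 (mem_inter.2 ⟨h1, ?_⟩)))
        exact hD ▸ hedge a b (h ▸ ha) h1
    exact this w (h ▸ self_mem_cls _ x)

omit [Group Γ] in
theorem tauIn_nonneg {nbr : Γ → {a // a ∈ S} → Γ} (T : Finset Γ) {p : ℝ} (h0 : 0 ≤ p)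
    (h1 : p ≤ 1) (o u : Γ) : 0 ≤ tauIn nbr T p o u := by
  classical
  refine avg_nonneg _ h0 h1 fun η _ => ?_
  by_cases h : cl η o u <;> simp [h]

omit [Group Γ] in
theorem phiIn_nonneg {nbr : Γ → {a // a ∈ S} → Γ} (T : Finset Γ) {p : ℝ} (h0 : 0 ≤ p)
    (h1 : p ≤ 1) (o : Γ) : 0 ≤ phiIn nbr T p o := by
  classical
  refine mul_nonneg h0 (sum_nonneg fun x _ => sum_nonneg fun a _ => ?_)
  by_cases h : nbr x a ∉ T
  · rw [if_pos h]; exact tauIn_nonneg T h0 h1 o x
  · rw [if_neg h]

/-- The chance to get far decays geometrically, given a set with few expected exits. -/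
theorem far_decay (hS : Gens S) {q φ : ℝ} (h0 : 0 ≤ q) (h1 : q ≤ 1) (T : Finset Γ)
    (hT1 : (1 : Γ) ∈ T) {L : ℕ} (hTL : T ⊆ ball S L) (hphi : phiIn (nb S) T q 1 ≤ φ) :
    ∀ (m : ℕ) (E : Finset (Sym2 Γ)), Valid S E → ∀ x : Γ,
      avg E q (fun η => ind (∃ y, cl η x y ∧ x⁻¹ * y ∉ ball S (m * (L + 1)))) ≤ φ ^ m := by
  classical
  intro m
  induction m with
  | zero => intro E _ x; exact avg_le_one E h0 h1 fun η _ => ind_le_one _
  | succ m ih =>
    intro E hE x
    set X := T.image (x * ·) with hX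
    set I := inE (nb S) X with hI
    have hxX : x ∈ X := mem_image.2 ⟨1, hT1, mul_one x⟩
    have hCX : ∀ η : Finset (Sym2 Γ), cls (η ∩ I) x ⊆ X := by
      intro η z hz
      by_cases hzx : z = x
      · exact hzx ▸ hxX
      obtain ⟨w⟩ := (mem_cls.1 hz).symm
      cases w with
      | nil => exact absurd rfl hzx
      | cons hadj _ =>
        exact inE_mem (mem_inter.1 ((SimpleGraph.fromEdgeSet_adj _).1 hadj).1).2
          (Sym2.mem_mk_left _ _)
    let G : Finset Γ → Γ → {a // a ∈ S} → Finset (Sym2 Γ) → ℝ := fun A u a η =>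
      ind (u ∈ A ∧ cls (η ∩ I) x = A ∧ s(u, nb S u a) ∈ η)
        * ind (∃ y, cl (η \ touch (nb S) A) (nb S u a) y ∧
            (nb S u a)⁻¹ * y ∉ ball S (m * (L + 1)))
    have hpt : ∀ η, η ⊆ E → ind (∃ y, cl η x y ∧ x⁻¹ * y ∉ ball S ((m + 1) * (L + 1)))
        ≤ ∑ u ∈ X, ∑ a, (if nb S u a ∉ X then ∑ A ∈ X.powerset, G A u a η else 0) := by
      intro η hη
      have hnn : ∀ u a, 0 ≤ (if nb S u a ∉ X then ∑ A ∈ X.powerset, G A u a η else 0) := by
        intro u a
        split_ifs
        · exact le_rfl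
        · exact sum_nonneg fun A _ => mul_nonneg (ind_nonneg _) (ind_nonneg _)
      by_cases h : ∃ y, cl η x y ∧ x⁻¹ * y ∉ ball S ((m + 1) * (L + 1))
      swap
      · rw [ind_false h]
        exact sum_nonneg fun u _ => sum_nonneg fun a _ => hnn u a
      obtain ⟨y, ⟨w⟩, hy⟩ := h
      set A := cls (η ∩ I) x with hA
      have hyA : y ∉ A := by
        intro hyA
        obtain ⟨t, ht, rfl⟩ := mem_image.1 (hCX η hyA)
        refine hy (ball_mono ?_ (by simpa using hTL ht))
        nlinarith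
      have hD : ∀ e ∈ touch (nb S) A, ∃ v ∈ (A : Set Γ), v ∈ e := by
        intro e he
        obtain ⟨⟨v, a⟩, hv, rfl⟩ := mem_image.1 he
        exact ⟨v, (mem_product.1 hv).1, Sym2.mem_mk_left _ _⟩
      rcases last_exit (A : Set Γ) hD w hyA with ⟨hx, -⟩ | ⟨u, v, hu, hv, huv, he, hcl⟩
      · exact absurd (self_mem_cls _ x) hx
      have hG : (cayley S).Adj u v := hE _ (hη he)
      set a : {a // a ∈ S} := ⟨u⁻¹ * v, hS.adj.1 hG⟩ with ha
      have hnb : nb S u a = v := by simp [nb, ha]
      have hvX : v ∉ X := fun hvX => hv (mem_cls.2 ((mem_cls.1 hu).trans (cl_edge huv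
        (mem_inter.2 ⟨he, mem_inE hS.labelling (hCX η hu) hvX hG⟩))))
      refine le_trans ?_ (single_le_sum (fun u _ => sum_nonneg fun a _ => hnn u a) (hCX η hu))
      refine le_trans ?_ (single_le_sum (fun a _ => hnn u a) (mem_univ a))
      rw [if_pos (by rw [hnb]; exact hvX)]
      refine le_trans ?_ (single_le_sum (fun A _ => mul_nonneg (ind_nonneg _) (ind_nonneg _))
        (mem_powerset.2 (hCX η)))
      refine (ind_le_one _).trans (le_of_eq ?_)
      have hfar : v⁻¹ * y ∉ ball S (m * (L + 1)) := by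
        intro hc
        obtain ⟨t, ht, htu⟩ := mem_image.1 (hCX η hu)
        have h2 : x⁻¹ * v = t * a.1 := by simp [ha, ← htu, mul_assoc]
        refine hy ?_
        have := mem_ball_add (mul_mem_ball_succ (hTL ht) a.2) hc
        rw [← h2, show x⁻¹ * v * (v⁻¹ * y) = x⁻¹ * y by group] at this
        exact ball_mono (le_of_eq (by ring)) this
      rw [hnb, ← hA, ind_true ⟨hu, rfl, he⟩, ind_true ⟨y, hcl, hfar⟩, one_mul]
    refine (avg_mono E h0 h1 hpt).trans ?_
    rw [avg_sum]
    have hu : ∀ u ∈ X, ∀ a, nb S u a ∉ X → avg E q (fun η => ∑ A ∈ X.powerset, G A u a η)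
        ≤ φ ^ m * (q * tauIn (nb S) T q 1 (x⁻¹ * u)) := by
      intro u _ a ha
      rw [avg_sum]
      have hA : ∀ A ∈ X.powerset, avg E q (G A u a)
          ≤ φ ^ m * avg E q (fun η => ind (u ∈ A ∧ cls (η ∩ I) x = A ∧ s(u, nb S u a) ∈ η)) := by
        intro A _
        set D := touch (nb S) A with hD
        let f : Finset (Sym2 Γ) → ℝ := fun η =>
          ind (u ∈ A ∧ cls (η ∩ I) x = A ∧ s(u, nb S u a) ∈ η)
        let g : Finset (Sym2 Γ) → ℝ := fun η =>
          ind (∃ y, cl η (nb S u a) y ∧ (nb S u a)⁻¹ * y ∉ ball S (m * (L + 1)))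
        have hf : ∀ η, η ⊆ E → f η = f (η ∩ (E ∩ D)) := by
          intro η hη
          have e0 : η ∩ (E ∩ D) = η ∩ D := by rw [← inter_assoc, inter_eq_left.2 hη]
          rw [e0]
          refine ind_congr (and_congr_right fun huA => ?_)
          refine and_congr ?_ ⟨fun h => mem_inter.2 ⟨h, mem_touch huA a⟩, fun h => (mem_inter.1 h).1⟩
          rw [show (η ∩ D) ∩ I = (η ∩ I) ∩ D by rw [inter_right_comm]]
          refine cls_inter_touch (nb S) (fun b c hb hbc => ?_) rfl
          have hG : (cayley S).Adj b c := hE _ (hη (mem_inter.1 hbc).1)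
          obtain ⟨s, rfl⟩ := (hS.labelling.adj b c).1 hG
          exact mem_touch hb s
        have hg : ∀ η, η ⊆ E → g (η \ D) = g (η \ (E ∩ D)) := fun η hη => by
          congr 1
          ext e
          simp only [mem_sdiff, mem_inter, not_and]
          exact ⟨fun h => ⟨h.1, fun _ => h.2⟩, fun h => ⟨h.1, h.2 (hη h.1)⟩⟩
        have e1 : avg E q (G A u a) = avg E q (fun η => f (η ∩ (E ∩ D)) * g (η \ (E ∩ D))) :=
          avg_congr E q fun η hη => by rw [← hf η hη, ← hg η hη]
        have e2 : avg E q f = avg (E ∩ D) q f := by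
          rw [← avg_restrict inter_subset_left]
          exact avg_congr E q hf
        rw [e1, avg_split inter_subset_left, ← e2, mul_comm]
        refine mul_le_mul_of_nonneg_right (ih _ (fun e he => hE e (mem_sdiff.1 he).1) _)
          (avg_nonneg E h0 h1 fun η _ => ind_nonneg _)
      refine (sum_le_sum hA).trans ?_
      rw [← mul_sum, ← avg_sum]
      refine mul_le_mul_of_nonneg_left ?_ (pow_nonneg ((phiIn_nonneg T h0 h1 1).trans hphi) m)
      set e := s(u, nb S u a) with he
      refine (avg_mono E h0 h1 (g := fun η => ind (u ∈ cls (η ∩ I) x) * ind (e ∈ η))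
        fun η _ => ?_).trans ?_
      · rw [sum_eq_single_of_mem (cls (η ∩ I) x) (mem_powerset.2 (hCX η)) fun A _ hne =>
          ind_false fun h => hne h.2.1.symm]
        rw [← ind_and]
        exact ind_mono fun h => ⟨h.1, h.2.2⟩
      by_cases heE : e ∈ E
      swap
      · rw [avg_congr E q (g := fun _ => (0 : ℝ)) fun η hη => by
          rw [ind_false fun h => heE (hη h), mul_zero], avg_const]
        exact mul_nonneg h0 (tauIn_nonneg T h0 h1 1 _)
      have heI : e ∉ I := fun h => ha (inE_mem h (Sym2.mem_mk_right _ _))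
      rw [avg_edge heE]
      have z1 : avg (E.erase e) q (fun η => ind (u ∈ cls (η ∩ I) x) * ind (e ∈ η)) = 0 := by
        rw [avg_congr _ q (g := fun _ => (0 : ℝ)) fun η hη => by
          rw [ind_false fun h => notMem_erase e E (hη h), mul_zero], avg_const]
      have z2 : avg (E.erase e) q (fun η => ind (u ∈ cls (insert e η ∩ I) x) * ind (e ∈ insert e η))
          = avg (E.erase e) q (fun η => ind (u ∈ cls (η ∩ I) x)) :=
        avg_congr _ q fun η _ => by
          rw [insert_inter_of_notMem heI, ind_true (mem_insert_self e η), mul_one]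
      rw [z1, z2, mul_zero, add_zero]
      refine mul_le_mul_of_nonneg_left ?_ h0
      have e3 : avg (E.erase e) q (fun η => ind (u ∈ cls (η ∩ I) x))
          ≤ avg I q (fun η => ind (u ∈ cls η x)) := by
        have r1 := avg_restrict (inter_subset_left : E.erase e ∩ I ⊆ E.erase e) q
          (fun η => ind (u ∈ cls η x))
        have r2 := avg_restrict (inter_subset_right : E.erase e ∩ I ⊆ I) q
          (fun η => ind (u ∈ cls η x))
        rw [avg_congr (E.erase e) q (g := fun η => ind (u ∈ cls (η ∩ (E.erase e ∩ I)) x))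
          fun η hη => by rw [← inter_assoc, inter_eq_left.2 hη], r1, ← r2]
        exact avg_mono I h0 h1 fun η _ => ind_mono fun h => cls_mono inter_subset_left x h
      refine e3.trans (le_of_eq ?_)
      rw [hI, hX, ← shift_inE hS, shift,
        avg_image (Sym2.map.injective (mul_right_injective x)), tauIn]
      refine avg_congr _ _ fun η _ => ?_
      show ind (u ∈ cls (shift x η) x) = _
      rw [mem_cls]
      have hiff : cl (shift x η) x u ↔ cl η 1 (x⁻¹ * u) := by
        have h := cl_shift (g := x) (x := 1) (y := x⁻¹ * u) (η := η)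
        rwa [mul_one, show x * (x⁻¹ * u) = u by group] at h
      by_cases h : cl η 1 (x⁻¹ * u)
      · rw [if_pos h, ind_true (hiff.2 h)]
      · rw [if_neg h, ind_false fun h' => h (hiff.1 h')]
    calc ∑ u ∈ X, avg E q (fun η => ∑ a, (if nb S u a ∉ X then ∑ A ∈ X.powerset, G A u a η else 0))
        ≤ ∑ u ∈ X, ∑ a, (if nb S u a ∉ X then φ ^ m * (q * tauIn (nb S) T q 1 (x⁻¹ * u)) else 0) := by
          refine sum_le_sum fun u hu' => ?_
          rw [avg_sum]
          refine sum_le_sum fun a _ => ?_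
          by_cases h : nb S u a ∉ X
          · simp only [if_pos h]; exact hu u hu' a h
          · simp only [if_neg h]; rw [avg_const]
      _ = φ ^ m * phiIn (nb S) T q 1 := by
          rw [phiIn, hX, sum_image fun a _ b _ h => mul_left_cancel h]
          simp only [mul_sum]
          refine sum_congr rfl fun c _ => sum_congr rfl fun a _ => ?_
          have : nb S (x * c) a = x * nb S c a := by simp [nb, mul_assoc]
          have hmem : nb S (x * c) a ∈ T.image (x * ·) ↔ nb S c a ∈ T := by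
            rw [this, (mul_right_injective x).mem_finset_image]
          by_cases hc : nb S c a ∈ T
          · rw [if_neg (not_not.2 (hmem.2 hc)), if_neg (not_not.2 hc)]; simp
          · rw [if_pos fun h => hc (hmem.1 h), if_pos hc, inv_mul_cancel_left]
      _ ≤ φ ^ (m + 1) := by
          rw [pow_succ]
          exact mul_le_mul_of_nonneg_left hphi (pow_nonneg ((phiIn_nonneg T h0 h1 1).trans hphi) m)

/-- A set with few expected exits gives polynomial decay of the cluster tail. -/
theorem tail_decay (hS : Gens S) {q : ℝ} (h0 : 0 ≤ q) (h1 : q ≤ 1) {T : Finset Γ}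
    (hT1 : (1 : Γ) ∈ T) {L : ℕ} (hTL : T ⊆ ball S L) (hphi : phiIn (nb S) T q 1 < 1) :
    ∃ C δ : ℝ, 0 < δ ∧ ∀ n : ℕ, 1 ≤ n → tail S q n ≤ C * (n : ℝ) ^ (-δ) := by
  set φ := max (phiIn (nb S) T q 1) (1 / 2) with hφdef
  have hφ0 : 0 < φ := lt_of_lt_of_le (by norm_num) (le_max_right _ _)
  have hφ1 : φ < 1 := max_lt hphi (by norm_num)
  set B : ℕ := (S.card + 2) ^ (L + 1) with hBdef
  have hB : 1 < B := Nat.one_lt_pow (by omega) (by omega)
  have hlB : 0 < Real.log B := Real.log_pos (by exact_mod_cast hB)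
  set δ := -Real.log φ / Real.log B with hδ
  have hδ0 : 0 < δ := div_pos (neg_pos.2 (Real.log_neg hφ0 hφ1)) hlB
  refine ⟨φ⁻¹ * (2 : ℝ) ^ δ, δ, hδ0, fun n hn => ?_⟩
  have hnpos : (0 : ℝ) < n := by exact_mod_cast hn
  rcases Nat.lt_or_ge n 2 with hn2 | hn2
  · obtain rfl : n = 1 := by omega
    refine (tail_le_one h0 h1 1).trans ?_
    rw [Nat.cast_one, Real.one_rpow, mul_one]
    exact one_le_mul_of_one_le_of_one_le ((one_le_inv₀ hφ0).2 hφ1.le)
      (Real.one_le_rpow one_le_two hδ0.le)
  set m := Nat.log B (n - 1) with hm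
  have hBm : (ball S (m * (L + 1))).card < n := by
    refine lt_of_le_of_lt ((card_ball_le _).trans (Nat.pow_le_pow_left (by omega : S.card + 1 ≤ S.card + 2) _)) ?_
    rw [show m * (L + 1) = (L + 1) * m from by ring, pow_mul, ← hBdef]
    have := Nat.pow_log_le_self B (x := n - 1) (by omega)
    rw [← hm] at this
    omega
  have h2 : tail S q n ≤ φ ^ m := by
    refine le_trans (avg_mono _ h0 h1 fun η hη => ind_mono fun hbig => ?_)
      (far_decay hS h0 h1 T hT1 hTL (le_max_left _ _) m _ (valid_eball hS (Subset.refl _)) 1)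
    by_contra hc
    push Not at hc
    have : cls η 1 ⊆ ball S (m * (L + 1)) := fun y hy => by
      simpa using hc y (mem_cls.1 hy)
    have := card_le_card this
    unfold csize at hbig
    omega
  refine h2.trans ?_
  have hlt : (n - 1 : ℕ) < B ^ (m + 1) := Nat.lt_pow_succ_log_self hB _
  have hB1 : (n : ℝ) ≤ 2 * (B : ℝ) ^ (m + 1) := by
    have h3 : n ≤ 2 * B ^ (m + 1) := by omega
    exact_mod_cast h3
  have key : (B : ℝ) ^ (-δ) = φ := by
    rw [Real.rpow_def_of_pos (by positivity), hδ]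
    rw [show Real.log B * -(-Real.log φ / Real.log B) = Real.log φ by field_simp]
    exact Real.exp_log hφ0
  have h4 : ((2 : ℝ) * (B : ℝ) ^ (m + 1)) ^ (-δ) ≤ (n : ℝ) ^ (-δ) :=
    Real.rpow_le_rpow_of_nonpos hnpos hB1 (by linarith)
  calc φ ^ m = φ⁻¹ * (2 : ℝ) ^ δ * (((2 : ℝ) * (B : ℝ) ^ (m + 1)) ^ (-δ)) := by
        rw [Real.mul_rpow (by norm_num) (by positivity), Real.rpow_neg (by norm_num : (0:ℝ) ≤ 2),
          ← Real.rpow_natCast, ← Real.rpow_natCast (B : ℝ), ← Real.rpow_mul (by positivity),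
          mul_comm ((m + 1 : ℕ) : ℝ) (-δ), Real.rpow_mul (by positivity), key]
        push_cast
        rw [Real.rpow_add hφ0, Real.rpow_one]
        field_simp
    _ ≤ _ := mul_le_mul_of_nonneg_left h4 (by positivity)

end Vale.Agent.P151
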