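import Vale.Agent.P151.Decay

/-!
# The exploration martingale of a cluster
-/

namespace Vale.Agent.P151

open Finset Vale.Agent.P165

variable {Γ : Type} [Group Γ] [DecidableEq Γ] {S : Finset Γ}

/-- Centred count of closed against open edges. -/
def bal (p : ℝ) (O C : Finset (Sym2 Γ)) : ℝ := p * C.card - (1 - p) * O.card

variable (S) in
/-- The unexplored edges at the explored part of the cluster of the identity. -/
noncomputable def frontier (E O C : Finset (Sym2 Γ)) : Finset (Sym2 Γ) :=
  (touch (nb S) (cls O 1) ∩ E) \ (O ∪ C)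

open Classical in
variable (S) in
/-- The martingale stopped after `m` steps of exploration. -/
noncomputable def explore (E : Finset (Sym2 Γ)) (p : ℝ) : ℕ → Finset (Sym2 Γ) →
    Finset (Sym2 Γ) → Finset (Sym2 Γ) → ℝ
  | 0, O, C, _ => bal p O C
  | m + 1, O, C, η =>
    if h : (frontier S E O C).Nonempty then
      if h.choose ∈ η then explore E p m (insert h.choose O) C η
      else explore E p m O (insert h.choose C) η
    else bal p O C

theorem explore_congr (E : Finset (Sym2 Γ)) (p : ℝ) : ∀ (m : ℕ) (O C η η' : Finset (Sym2 Γ)),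
    (∀ e, e ∉ O ∪ C → (e ∈ η ↔ e ∈ η')) → explore S E p m O C η = explore S E p m O C η'
  | 0, O, C, η, η', _ => by simp [explore]
  | m + 1, O, C, η, η', h => by
      rw [explore, explore]
      by_cases hne : (frontier S E O C).Nonempty
      · rw [dif_pos hne, dif_pos hne]
        have he : hne.choose ∉ O ∪ C := (mem_sdiff.1 hne.choose_spec).2
        have h1 : explore S E p m (insert hne.choose O) C η
            = explore S E p m (insert hne.choose O) C η' :=
          explore_congr E p m _ _ η η' fun e hne' => h e fun hh => hne' (by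
            rw [insert_union]; exact mem_insert_of_mem hh)
        have h2 : explore S E p m O (insert hne.choose C) η
            = explore S E p m O (insert hne.choose C) η' :=
          explore_congr E p m _ _ η η' fun e hne' => h e fun hh => hne' (by
            rw [union_insert]; exact mem_insert_of_mem hh)
        rw [h1, h2]
        exact if_congr (h _ he) rfl rfl
      · rw [dif_neg hne, dif_neg hne]

/-- The second moment grows by at most `p (1 - p)` per step. -/
theorem explore_sq (E : Finset (Sym2 Γ)) {p : ℝ} (h0 : 0 ≤ p) (h1 : p ≤ 1) :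
    ∀ (m : ℕ) (O C : Finset (Sym2 Γ)), avg (E \ (O ∪ C)) p (fun η => explore S E p m O C η ^ 2)
      ≤ bal p O C ^ 2 + m * (p * (1 - p))
  | 0, O, C => by simp [explore, avg_const]
  | m + 1, O, C => by
      have hpq : 0 ≤ p * (1 - p) := mul_nonneg h0 (sub_nonneg.2 h1)
      by_cases hne : (frontier S E O C).Nonempty
      swap
      · rw [avg_congr _ p (g := fun _ => bal p O C ^ 2) fun η _ => by rw [explore, dif_neg hne],
          avg_const]
        push_cast
        nlinarith [mul_nonneg (Nat.cast_nonneg (α := ℝ) m) hpq]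
      set e := hne.choose with he
      have hmem : (e ∈ touch (nb S) (cls O 1) ∧ e ∈ E) ∧ e ∉ O ∪ C :=
        ⟨mem_inter.1 (mem_sdiff.1 hne.choose_spec).1, (mem_sdiff.1 hne.choose_spec).2⟩
      have heE : e ∈ E \ (O ∪ C) := mem_sdiff.2 ⟨hmem.1.2, hmem.2⟩
      have heOC := hmem.2
      rw [mem_union, not_or] at heOC
      have s1 : (E \ (O ∪ C)).erase e = E \ (insert e O ∪ C) := by
        rw [insert_union, sdiff_insert]
      have s2 : (E \ (O ∪ C)).erase e = E \ (O ∪ insert e C) := by
        rw [union_insert, sdiff_insert]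
      rw [avg_edge heE]
      have a1 : avg ((E \ (O ∪ C)).erase e) p (fun η => explore S E p (m + 1) O C (insert e η) ^ 2)
          = avg ((E \ (O ∪ C)).erase e) p (fun η => explore S E p m (insert e O) C η ^ 2) :=
        avg_congr _ p fun η _ => by
          rw [explore, dif_pos hne, ← he, if_pos (mem_insert_self e η),
            explore_congr E p m (insert e O) C (insert e η) η fun f hf => ?_]
          rw [mem_union, not_or, mem_insert, not_or] at hf
          simp [hf.1.1]
      have a2 : avg ((E \ (O ∪ C)).erase e) p (fun η => explore S E p (m + 1) O C η ^ 2)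
          = avg ((E \ (O ∪ C)).erase e) p (fun η => explore S E p m O (insert e C) η ^ 2) :=
        avg_congr _ p fun η hη => by
          rw [explore, dif_pos hne, ← he, if_neg fun h => notMem_erase e _ (hη h)]
      rw [a1, a2]
      have i1 := mul_le_mul_of_nonneg_left (explore_sq E h0 h1 m (insert e O) C) h0
      have i2 := mul_le_mul_of_nonneg_left (explore_sq E h0 h1 m O (insert e C)) (sub_nonneg.2 h1)
      rw [← s1] at i1
      rw [← s2] at i2
      have b1 : bal p (insert e O) C = bal p O C - (1 - p) := by
        simp only [bal, card_insert_of_notMem heOC.1]; push_cast; ring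
      have b2 : bal p O (insert e C) = bal p O C + p := by
        simp only [bal, card_insert_of_notMem heOC.2]; push_cast; ring
      rw [b1] at i1
      rw [b2] at i2
      push_cast
      nlinarith

theorem explore_final (hS : Gens S) {E : Finset (Sym2 Γ)} (hE : Valid S E) (p : ℝ)
    {η : Finset (Sym2 Γ)} (hη : η ⊆ E) (hK : touch (nb S) (cls η 1) ⊆ E) :
    ∀ (m : ℕ) (O C : Finset (Sym2 Γ)), O ⊆ η → (∀ e ∈ C, e ∉ η) →
      O ∪ C ⊆ touch (nb S) (cls η 1) → (touch (nb S) (cls η 1) \ (O ∪ C)).card ≤ m →
      explore S E p m O C η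
        = bal p (touch (nb S) (cls η 1) ∩ η) (touch (nb S) (cls η 1) \ η) := by
  intro m
  set K := touch (nb S) (cls η 1) with hKdef
  have hstop : ∀ O C : Finset (Sym2 Γ), O ⊆ η → (∀ e ∈ C, e ∉ η) → O ∪ C ⊆ K →
      ¬ (frontier S E O C).Nonempty → bal p O C = bal p (K ∩ η) (K \ η) := by
    intro O C hO hC hOC hne
    rw [not_nonempty_iff_eq_empty, frontier, sdiff_eq_empty_iff_subset] at hne
    have hsub : ∀ {u v : Γ} (w : (SimpleGraph.fromEdgeSet (η : Set (Sym2 Γ))).Walk u v),
        u ∈ cls O 1 → v ∈ cls O 1 := by
      intro u v w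
      induction w with
      | nil => exact id
      | @cons a b c hadj _ ih =>
        intro ha
        refine ih (mem_cls.2 ((mem_cls.1 ha).trans ?_))
        obtain ⟨h1, h2⟩ := (SimpleGraph.fromEdgeSet_adj _).1 hadj
        refine cl_edge h2 ?_
        obtain ⟨s, hs⟩ := (hS.labelling.adj a b).1 (hE _ (hη h1) : (cayley S).Adj a b)
        have hab : s(a, b) ∈ touch (nb S) (cls O 1) := hs ▸ mem_touch ha s
        rcases mem_union.1 (hne (mem_inter.2 ⟨hab, hη h1⟩)) with h | h
        · exact h
        · exact absurd h1 (hC _ h)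
    have hcls : cls O 1 = cls η 1 := Subset.antisymm (cls_mono hO 1) fun z hz => by
      obtain ⟨w⟩ := mem_cls.1 hz
      exact hsub w (self_mem_cls O 1)
    rw [hcls, ← hKdef, inter_eq_left.2 hK] at hne
    have hall : O ∪ C = K := Subset.antisymm hOC hne
    have e1 : K ∩ η = O := by
      rw [← hall]
      ext e
      simp only [mem_inter, mem_union]
      exact ⟨fun h => h.1.resolve_right fun hc => hC e hc h.2, fun h => ⟨Or.inl h, hO h⟩⟩
    have e2 : K \ η = C := by
      rw [← hall]
      ext e
      simp only [mem_sdiff, mem_union]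
      exact ⟨fun h => h.1.resolve_left fun ho => h.2 (hO ho), fun h => ⟨Or.inr h, hC e h⟩⟩
    rw [e1, e2]
  induction m with
  | zero =>
    intro O C hO hC hOC hcard
    rw [explore]
    refine hstop O C hO hC hOC fun hne => ?_
    obtain ⟨e, he⟩ := hne
    rw [frontier, mem_sdiff, mem_inter] at he
    rw [Nat.le_zero, card_eq_zero, sdiff_eq_empty_iff_subset] at hcard
    refine he.2 (hcard ?_)
    exact image_subset_image (product_subset_product (cls_mono hO 1) (Subset.refl _)) he.1.1
  | succ m ih =>
    intro O C hO hC hOC hcard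
    rw [explore]
    by_cases hne : (frontier S E O C).Nonempty
    swap
    · rw [dif_neg hne]; exact hstop O C hO hC hOC hne
    rw [dif_pos hne]
    set e := hne.choose with he
    have hmem : (e ∈ touch (nb S) (cls O 1) ∧ e ∈ E) ∧ e ∉ O ∪ C :=
      ⟨mem_inter.1 (mem_sdiff.1 hne.choose_spec).1, (mem_sdiff.1 hne.choose_spec).2⟩
    have heK : e ∈ K :=
      image_subset_image (product_subset_product (cls_mono hO 1) (Subset.refl _)) hmem.1.1
    have hcard' : ((K \ (O ∪ C)).erase e).card ≤ m := by
      rw [card_erase_of_mem (mem_sdiff.2 ⟨heK, hmem.2⟩)]; omega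
    by_cases heη : e ∈ η
    · rw [if_pos heη]
      refine ih _ _ (insert_subset heη hO) hC (by rw [insert_union]; exact insert_subset heK hOC) ?_
      rwa [insert_union, sdiff_insert]
    · rw [if_neg heη]
      refine ih _ _ hO ?_ (by rw [union_insert]; exact insert_subset heK hOC) ?_
      · intro f hf
        rcases mem_insert.1 hf with rfl | hf
        · exact heη
        · exact hC f hf
      · rwa [union_insert, sdiff_insert]

variable (S) in
/-- The martingale at the end of the exploration of the cluster of the identity. -/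
noncomputable def dev (p : ℝ) (η : Finset (Sym2 Γ)) : ℝ :=
  bal p (touch (nb S) (cls η 1) ∩ η) (touch (nb S) (cls η 1) \ η)

/-- First moment of the martingale on the event of a small cluster. -/
theorem dev_abs_le (hS : Gens S) {p : ℝ} (h0 : 0 ≤ p) (h1 : p ≤ 1) (M N : ℕ) :
    avg (eball S 1 M) p (fun η => ind (csize η 1 < N + 1 ∧ csize η 1 ≤ M) * |dev S p η|)
      ≤ Real.sqrt ((S.card : ℝ) * N + 1) := by
  set E := eball S (1 : Γ) M with hE
  have hv : Valid S E := valid_eball hS (Subset.refl _)
  set m := S.card * N with hm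
  have hpt : ∀ η, η ⊆ E → ind (csize η 1 < N + 1 ∧ csize η 1 ≤ M) * |dev S p η|
      ≤ |explore S E p m ∅ ∅ η| := by
    intro η hη
    by_cases h : csize η 1 < N + 1 ∧ csize η 1 ≤ M
    swap
    · rw [ind_false h, zero_mul]; exact abs_nonneg _
    rw [ind_true h, one_mul]
    refine le_of_eq (congrArg _ (explore_final hS hv p hη ?_ m ∅ ∅ (empty_subset _)
      (fun e he => absurd he (notMem_empty e)) (by simp) ?_).symm)
    · intro e he
      obtain ⟨⟨v, a⟩, hv', rfl⟩ := mem_image.1 he
      have hb := cls_subset_ball hS (fun e he => hv e (hη he)) (mem_product.1 hv').1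
      rw [inv_one, one_mul] at hb
      exact mem_touch (mem_image.2 ⟨v, ball_mono (by omega) hb, one_mul v⟩) a
    · rw [union_empty, sdiff_empty, touch]
      refine card_image_le.trans ?_
      rw [card_product, card_univ, Fintype.card_coe, hm, Nat.mul_comm S.card]
      exact Nat.mul_le_mul_right _ (Nat.le_of_lt_succ h.1)
  refine (avg_mono E h0 h1 hpt).trans (avg_abs_le_sqrt E h0 h1 _ ?_ (Real.sqrt_pos.2 (by positivity)))
  have := explore_sq (S := S) E h0 h1 m ∅ ∅
  rw [union_empty, sdiff_empty] at this
  refine this.trans ?_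
  rw [Real.sq_sqrt (by positivity)]
  simp only [bal, card_empty, Nat.cast_zero, mul_zero, sub_zero, ne_eq, OfNat.ofNat_ne_zero,
    not_false_eq_true, zero_pow, zero_add, hm, Nat.cast_mul]
  have hpq1 : p * (1 - p) ≤ 1 := by nlinarith
  exact (mul_le_of_le_one_right (by positivity) hpq1).trans (by linarith)

end Vale.Agent.P151
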