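import Vale.Agent.P151.Decay

/-!
# Mass transport on a Cayley graph
-/

namespace Vale.Agent.P151

open Finset Vale.Agent.P165

variable {Γ : Type} [Group Γ] [DecidableEq Γ] {S : Finset Γ}

/-- Mass transport: a vertex sees the average over its cluster. -/
theorem mass (hS : Gens S) (p : ℝ) {R M : ℕ} (hM : 4 * R ≤ M) {g : ℕ → ℝ}
    (hg : ∀ k, R < k → g k = 0) {h : Finset (Sym2 Γ) → Γ → ℝ}
    (hcov : ∀ z η x, h (shift z η) (z * x) = h η x)
    (hloc : ∀ η x, Valid S η → csize η x ≤ R → h η x = h (η ∩ eball S x (2 * R)) x) :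
    avg (eball S 1 M) p (fun η => g (csize η 1) * h η 1)
      = avg (eball S 1 M) p (fun η => g (csize η 1) / csize η 1 * ∑ x ∈ cls η 1, h η x) := by
  set E := eball S (1 : Γ) M with hE
  have hv : ∀ η, η ⊆ E → Valid S η := fun η hη => valid_eball hS hη
  let F : Finset (Sym2 Γ) → Γ → Γ → ℝ := fun η x y =>
    ind (y ∈ cls η x) * (g (csize η x) / csize η x) * h η y
  have hball : ∀ η, η ⊆ E → csize η 1 ≤ R → ∀ y ∈ cls η 1, y ∈ ball S R := by
    intro η hη hR y hy
    have := cls_subset_ball hS (hv η hη) hy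
    rw [inv_one, one_mul] at this
    exact ball_mono (by omega) this
  have hL : ∀ η, η ⊆ E → g (csize η 1) * h η 1 = ∑ y ∈ ball S R, F η y 1 := by
    intro η hη
    by_cases hR : csize η 1 ≤ R
    swap
    · rw [hg _ (not_le.1 hR), zero_mul]
      refine (sum_eq_zero fun y _ => ?_).symm
      by_cases hy : (1 : Γ) ∈ cls η y
      · have : csize η y = csize η 1 := congrArg Finset.card (cls_eq (mem_cls.1 hy))
        simp only [F, this, hg _ (not_le.1 hR)]
        ring
      · simp [F, ind_false hy]
    have e : ∑ y ∈ ball S R, F η y 1 = ∑ y ∈ cls η 1, g (csize η 1) / csize η 1 * h η 1 := by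
      rw [← sum_subset (fun y hy => hball η hη hR y hy)
        (fun y _ hy => by
          have : (1 : Γ) ∉ cls η y := fun h' => hy (mem_cls.2 (mem_cls.1 h').symm)
          simp [F, ind_false this])]
      refine sum_congr rfl fun y hy => ?_
      have h' : (1 : Γ) ∈ cls η y := mem_cls.2 (mem_cls.1 hy).symm
      have : csize η y = csize η 1 := congrArg Finset.card (cls_eq (mem_cls.1 h'))
      simp only [F, ind_true h', this, one_mul]
    rw [e, sum_const, nsmul_eq_mul, ← mul_assoc]
    congr 1
    have : ((cls η 1).card : ℝ) ≠ 0 := by exact_mod_cast (csize_pos η 1).ne'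
    rw [csize]
    field_simp
  have hRt : ∀ η, η ⊆ E → g (csize η 1) / csize η 1 * ∑ x ∈ cls η 1, h η x
      = ∑ y ∈ ball S R, F η 1 y := by
    intro η hη
    by_cases hR : csize η 1 ≤ R
    swap
    · simp [F, hg _ (not_le.1 hR)]
    rw [← sum_subset (fun y hy => hball η hη hR y hy)
      (fun y _ hy => by simp [F, ind_false hy]), mul_sum]
    exact sum_congr rfl fun y hy => by simp [F, ind_true hy]
  rw [avg_congr E p hL, avg_congr E p hRt, avg_sum, avg_sum]
  refine sum_nbij' (fun y => y⁻¹) (fun y => y⁻¹) (fun y hy => inv_mem_ball hS hy)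
    (fun y hy => inv_mem_ball hS hy) (fun y _ => inv_inv y) (fun y _ => inv_inv y) fun y hy => ?_
  have hloc' : ∀ (x z : Γ), x⁻¹ * z ∈ ball S R → ∀ η, η ⊆ E →
      F η x z = F (η ∩ eball S x (3 * R)) x z := by
    intro x z hxz η hη
    set η' := η ∩ eball S x (3 * R) with hη'
    by_cases hR : csize η' x ≤ R
    swap
    · have h2 : csize η' x ≤ csize η x := card_le_card (cls_mono inter_subset_left x)
      simp only [F, hg _ (not_le.1 hR), hg _ (lt_of_lt_of_le (not_le.1 hR) h2)]
      ring
    have hcls : cls η x = cls η' x :=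
      cls_inter (R := 3 * R) hS (hv η hη) inter_subset_right (Or.inr (by rw [← hη']; omega))
    simp only [F, csize, hcls]
    by_cases hz : z ∈ cls η' x
    swap
    · simp [ind_false hz]
    congr 1
    have hzη : csize η z ≤ R := by
      rw [csize, ← cls_eq (mem_cls.1 (hcls ▸ hz)), hcls]; exact hR
    have hzη' : csize η' z ≤ R := by
      rw [csize, ← cls_eq (mem_cls.1 hz)]; exact hR
    rw [hloc η z (hv η hη) hzη, hloc η' z (hv η' (inter_subset_left.trans hη)) hzη']
    congr 1
    rw [hη', inter_assoc, inter_eq_right.2 (eball_mono hxz (by omega) :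
      eball S z (2 * R) ⊆ eball S x (3 * R))]
  have hy' := inv_mem_ball hS hy
  refine avg_translate (x := y) (y := 1) (R := 3 * R) (eball_one hy (by omega))
    (eball_one (one_mem_ball (S := S) 0) (by omega)) p
    (hloc' y 1 (by simpa using hy')) (hloc' 1 y⁻¹ (by simpa using hy')) fun η _ => ?_
  have key : ∀ z x w, F (shift z η) (z * x) (z * w) = F η x w := by
    intro z x w
    simp only [F, csize_shift, hcov, cls_shift, (mul_right_injective z).mem_finset_image]
  have h1 := key y 1 y⁻¹
  rw [mul_one, mul_inv_cancel] at h1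
  rw [h1, shift_one]

end Vale.Agent.P151
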