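import Vale.Agent.P151.Explore
import Vale.Agent.P151.Mass

/-!
# The two-ghost inequality
-/

namespace Vale.Agent.P151

open Finset Vale.Agent.P165

variable {Γ : Type} [Group Γ] [DecidableEq Γ] {S : Finset Γ}

/-- The ghost weight at scale `n`. -/
noncomputable def ghost (n k : ℕ) : ℝ := 1 - Real.exp (-(k : ℝ) / n)

theorem ghost_nonneg (n k : ℕ) : 0 ≤ ghost n k := by
  rw [ghost, sub_nonneg, Real.exp_le_one_iff]
  exact div_nonpos_of_nonpos_of_nonneg (neg_nonpos.2 (Nat.cast_nonneg _)) (Nat.cast_nonneg _)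

theorem ghost_le_one (n k : ℕ) : ghost n k ≤ 1 := by
  rw [ghost]; linarith [Real.exp_pos (-(k : ℝ) / n)]

theorem ghost_add (n a b : ℕ) : ghost n (a + b) = ghost n a + ghost n b - ghost n a * ghost n b := by
  simp only [ghost]
  rw [show (-((a + b : ℕ) : ℝ) / n) = -(a : ℝ) / n + -(b : ℝ) / n by push_cast; ring, Real.exp_add]
  ring

theorem ghost_le_div (n k : ℕ) : ghost n k ≤ (k : ℝ) / n := by
  rw [ghost]
  have h := Real.add_one_le_exp (-(k : ℝ) / n)
  rw [neg_div] at h ⊢
  linarith

theorem half_le_ghost {n k : ℕ} (hn : 1 ≤ n) (hk : n ≤ k) : 1 / 2 ≤ ghost n k := by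
  have hn' : (0 : ℝ) < n := by exact_mod_cast hn
  have h1 : (1 : ℝ) ≤ (k : ℝ) / n := by rw [le_div_iff₀ hn', one_mul]; exact_mod_cast hk
  rw [ghost, neg_div, Real.exp_neg]
  have h2 : (2 : ℝ) ≤ Real.exp ((k : ℝ) / n) :=
    le_trans (by linarith) (Real.add_one_le_exp _)
  have h3 := inv_anti₀ (by norm_num : (0 : ℝ) < 2) h2
  norm_num at h3 ⊢
  linarith

omit [Group Γ] in
theorem cls_insert {η : Finset (Sym2 Γ)} {u v : Γ} (hne : u ≠ v) :
    cls (insert s(u, v) η) u = cls η u ∪ cls η v := by
  refine Subset.antisymm (fun z hz => ?_) (union_subset (cls_mono (subset_insert _ _) u) ?_)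
  · obtain ⟨w⟩ := mem_cls.1 hz
    have : ∀ {a b : Γ}
        (w : (SimpleGraph.fromEdgeSet ((insert s(u, v) η : Finset (Sym2 Γ)) : Set (Sym2 Γ))).Walk a b),
        a ∈ cls η u ∪ cls η v → b ∈ cls η u ∪ cls η v := by
      intro a b w
      induction w with
      | nil => exact id
      | @cons a b c hadj _ ih =>
        intro ha
        refine ih ?_
        obtain ⟨h1, h2⟩ := (SimpleGraph.fromEdgeSet_adj _).1 hadj
        rcases mem_insert.1 (mem_coe.1 h1) with h | h
        · rcases Sym2.eq_iff.1 h with ⟨-, rfl⟩ | ⟨-, rfl⟩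
          · exact mem_union_right _ (self_mem_cls η b)
          · exact mem_union_left _ (self_mem_cls η b)
        · rcases mem_union.1 ha with ha | ha
          · exact mem_union_left _ (mem_cls.2 ((mem_cls.1 ha).trans (cl_edge h2 h)))
          · exact mem_union_right _ (mem_cls.2 ((mem_cls.1 ha).trans (cl_edge h2 h)))
    exact this w (mem_union_left _ (self_mem_cls η u))
  · intro z hz
    exact mem_cls.2 ((cl_edge hne (mem_insert_self _ _)).trans
      (cl_mono (subset_insert _ _) (mem_cls.1 hz)))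

omit [Group Γ] in
theorem csize_insert {η : Finset (Sym2 Γ)} {u v : Γ} (hne : u ≠ v) (hd : v ∉ cls η u) :
    csize (insert s(u, v) η) u = csize η u + csize η v := by
  rw [csize, cls_insert hne, card_union_of_disjoint, csize, csize]
  refine disjoint_left.2 fun z hz hz' => hd (mem_cls.2 ?_)
  exact (mem_cls.1 hz).trans (mem_cls.1 hz').symm

/-- The weight of an incidence in twice the martingale. -/
noncomputable def share (p : ℝ) (η : Finset (Sym2 Γ)) (x y : Γ) : ℝ :=
  if s(x, y) ∈ η then -(1 - p) else if y ∈ cls η x then p else 2 * p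

theorem two_dev (hS : Gens S) {η : Finset (Sym2 Γ)} (p : ℝ) :
    ∑ x ∈ cls η 1, ∑ a, share p η x (nb S x a) = 2 * dev S p η := by
  set K := cls η (1 : Γ) with hK
  set T := touch (nb S) K with hT
  rw [← sum_product', ← sum_fiberwise_of_maps_to (g := fun q => s(q.1, nb S q.1 q.2)) (t := T)
    (fun q hq => mem_image.2 ⟨q, hq, rfl⟩)]
  have key : ∀ e ∈ T, (∑ q ∈ (K ×ˢ (univ : Finset {a // a ∈ S})).filter
      (fun q => s(q.1, nb S q.1 q.2) = e), share p η q.1 (nb S q.1 q.2))
      = if e ∈ η then -2 * (1 - p) else 2 * p := by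
    intro e he
    obtain ⟨⟨u, a⟩, hu, rfl⟩ := mem_image.1 he
    have huK := (mem_product.1 hu).1
    have hne : u ≠ nb S u a := (hS.labelling.adj_nb u a).ne
    have hcl : cls η u = K := (cls_eq (mem_cls.1 huK)).symm
    set v := nb S u a with hv
    obtain ⟨b, hb⟩ := (hS.labelling.adj v u).1 (hS.labelling.adj_nb u a).symm
    have hfib : ∀ q ∈ (K ×ˢ (univ : Finset {a // a ∈ S})).filter
        (fun q => s(q.1, nb S q.1 q.2) = s(u, v)), q = (u, a) ∨ (q = (v, b) ∧ v ∈ K) := by
      intro q hq
      rw [mem_filter, mem_product] at hq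
      obtain ⟨⟨hqK, -⟩, hq⟩ := hq
      rcases Sym2.eq_iff.1 hq with ⟨h1, h2⟩ | ⟨h1, h2⟩
      · exact Or.inl (Prod.ext h1 (hS.labelling.inj u
          (show nb S u q.2 = nb S u a by rw [← hv]; simpa [h1] using h2)))
      · exact Or.inr ⟨Prod.ext h1 (hS.labelling.inj v
          (show nb S v q.2 = nb S v b by rw [hb]; simpa [h1] using h2)), h1 ▸ hqK⟩
    have hmem : (u, a) ∈ (K ×ˢ (univ : Finset {a // a ∈ S})).filter
        (fun q => s(q.1, nb S q.1 q.2) = s(u, v)) := mem_filter.2 ⟨hu, rfl⟩
    by_cases hvK : v ∈ K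
    · have hset : (K ×ˢ (univ : Finset {a // a ∈ S})).filter
          (fun q => s(q.1, nb S q.1 q.2) = s(u, v)) = {(u, a), (v, b)} := by
        refine Subset.antisymm (fun q hq => ?_) (insert_subset hmem (singleton_subset_iff.2 ?_))
        · rcases hfib q hq with rfl | ⟨rfl, -⟩ <;> simp
        · exact mem_filter.2 ⟨mem_product.2 ⟨hvK, mem_univ _⟩, by rw [hb]; exact Sym2.eq_swap⟩
      rw [hset, sum_pair fun h => hne (congrArg Prod.fst h)]
      have hvu : u ∈ cls η v := by rw [← cls_eq (mem_cls.1 (hcl ▸ hvK))]; exact self_mem_cls η u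
      simp only [share, hb, ← hv, Sym2.eq_swap (a := v) (b := u), hcl, hvK, hvu, if_true]
      split_ifs <;> ring
    · have hset : (K ×ˢ (univ : Finset {a // a ∈ S})).filter
          (fun q => s(q.1, nb S q.1 q.2) = s(u, v)) = {(u, a)} := by
        refine Subset.antisymm (fun q hq => ?_) (singleton_subset_iff.2 hmem)
        rcases hfib q hq with rfl | ⟨-, h⟩
        · simp
        · exact absurd h hvK
      have heη : s(u, v) ∉ η := fun h =>
        hvK (mem_cls.2 ((mem_cls.1 huK).trans (cl_edge hne h)))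
      rw [hset, sum_singleton]
      simp only [share, ← hv, hcl, hvK, heη, if_false]
  rw [sum_congr rfl key, sum_ite, sum_const, sum_const, nsmul_eq_mul, nsmul_eq_mul, dev, bal,
    filter_mem_eq_inter, ← sdiff_eq_filter]
  ring

variable (S) in
/-- Disjoint large clusters at the two ends of an edge. -/
def Split (n R : ℕ) (η : Finset (Sym2 Γ)) (x y : Γ) : Prop :=
  y ∉ cls η x ∧ n ≤ csize η x ∧ n ≤ csize η y ∧ csize η x + csize η y ≤ R

theorem split_local (hS : Gens S) {η : Finset (Sym2 Γ)} (hv : Valid S η) {x : Γ}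
    (a : {a // a ∈ S}) {n R : ℕ} :
    Split n R η x (nb S x a) ↔ Split n R (η ∩ eball S x (R + 1)) x (nb S x a) := by
  set y := nb S x a with hy
  set η' := η ∩ eball S x (R + 1) with hη'
  have hsub : eball S y R ⊆ eball S x (R + 1) := eball_mono (T := 1) (by
    have := mul_mem_ball_succ (one_mem_ball (S := S) 0) a.2
    simpa [hy, nb] using this) (by omega)
  have hx : csize η x ≤ R + 2 ∨ csize η' x ≤ R + 2 → cls η x = cls η' x :=
    cls_inter hS hv inter_subset_right
  have hy' : csize η y ≤ R + 1 ∨ csize η' y ≤ R + 1 → cls η y = cls η' y :=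
    cls_inter hS hv (inter_subset_right.trans hsub)
  simp only [Split]
  constructor
  · rintro ⟨h1, h2, h3, h4⟩
    rw [csize, csize, ← hx (Or.inl (by omega)), ← hy' (Or.inl (by omega))]
    exact ⟨h1, h2, h3, h4⟩
  · rintro ⟨h1, h2, h3, h4⟩
    rw [csize, csize, hx (Or.inr (by omega)), hy' (Or.inr (by omega))]
    exact ⟨h1, h2, h3, h4⟩

theorem dyadic_term {N n : ℕ} (hN : 1 ≤ N) :
    ghost n N / N ≤ min ((n : ℝ)⁻¹) ((2 : ℝ) ^ (Nat.log 2 N))⁻¹ := by
  have hNpos : (0 : ℝ) < N := by exact_mod_cast hN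
  refine le_min ?_ ?_
  · rw [div_le_iff₀ hNpos]
    exact (ghost_le_div n N).trans (le_of_eq (by ring))
  · refine (div_le_div_of_nonneg_right (ghost_le_one n N) hNpos.le).trans ?_
    rw [one_div]
    refine inv_anti₀ (by positivity) ?_
    exact_mod_cast Nat.pow_log_le_self 2 (by omega)

theorem dyadic_sum {n : ℕ} (hn : 1 ≤ n) (J : ℕ) :
    ∑ j ∈ range J, min ((n : ℝ)⁻¹) ((2 : ℝ) ^ j)⁻¹ * Real.sqrt 2 ^ j ≤ 10 / Real.sqrt n := by
  set s := Real.sqrt 2 with hs
  have hs2 : s * s = 2 := Real.mul_self_sqrt (by norm_num)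
  have hs1 : 7 / 5 ≤ s := by
    rw [hs, Real.le_sqrt (by norm_num) (by norm_num)]; norm_num
  have hs0 : (0 : ℝ) < s := by linarith
  set m := Nat.log 2 n with hm
  have hn0 : (0 : ℝ) < n := by exact_mod_cast hn
  set r := Real.sqrt n with hr
  have hr0 : 0 < r := Real.sqrt_pos.2 hn0
  have hr2 : r * r = n := Real.mul_self_sqrt hn0.le
  have hlo : s ^ m ≤ r := by
    rw [hr, Real.le_sqrt (by positivity) hn0.le, ← pow_mul, mul_comm m 2, pow_mul, sq, hs2]
    exact_mod_cast Nat.pow_log_le_self 2 (by omega)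
  have hhi : r ≤ s ^ (m + 1) := by
    rw [hr, Real.sqrt_le_iff]
    refine ⟨by positivity, ?_⟩
    rw [← pow_mul, mul_comm (m + 1) 2, pow_mul, sq, hs2]
    exact_mod_cast (Nat.lt_pow_succ_log_self one_lt_two n).le
  have hterm : ∀ j, min ((n : ℝ)⁻¹) ((2 : ℝ) ^ j)⁻¹ * s ^ j
      ≤ (if j ≤ m then s ^ j / (r * r) else 0) + (if j ≤ m then 0 else (s⁻¹) ^ j) := by
    intro j
    by_cases h : j ≤ m
    · rw [if_pos h, if_pos h, add_zero, hr2, div_eq_inv_mul]
      exact mul_le_mul_of_nonneg_right (min_le_left _ _) (by positivity)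
    · rw [if_neg h, if_neg h, zero_add]
      refine (mul_le_mul_of_nonneg_right (min_le_right _ _) (by positivity)).trans (le_of_eq ?_)
      rw [← hs2, mul_pow, inv_pow]
      field_simp
  refine (sum_le_sum fun j _ => hterm j).trans ?_
  rw [sum_add_distrib]
  have h1 : ∑ j ∈ range J, (if j ≤ m then s ^ j / (r * r) else 0) ≤ 5 / r := by
    refine le_trans (le_of_eq (sum_filter _ _).symm) ?_
    refine le_trans (sum_le_sum_of_subset_of_nonneg (t := range (m + 1))
      (fun j hj => by simp only [mem_filter, mem_range] at hj ⊢; omega)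
      fun j _ _ => by positivity) ?_
    rw [← sum_div, geom_sum_eq (by linarith), div_le_div_iff₀ (by positivity) hr0]
    have h : (s ^ (m + 1) - 1) / (s - 1) ≤ 5 * r := by
      rw [div_le_iff₀ (by linarith), pow_succ]
      nlinarith
    nlinarith
  have h2 : ∑ j ∈ range J, (if j ≤ m then 0 else (s⁻¹) ^ j) ≤ 5 / r := by
    have hi0 : 0 ≤ s⁻¹ := by positivity
    have hi1 : s⁻¹ < 1 := inv_lt_one_of_one_lt₀ (by linarith)
    refine le_trans (le_of_eq (sum_congr rfl fun j _ => (ite_not (j ≤ m) _ _).symm)) ?_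
    refine le_trans (le_of_eq (sum_filter _ _).symm) ?_
    refine le_trans (sum_le_sum_of_subset_of_nonneg (t := Finset.Ico (m + 1) J)
      (fun j hj => by simp only [mem_filter, mem_range, mem_Ico] at hj ⊢; omega)
      fun j _ _ => by positivity) ?_
    refine (geom_sum_Ico_le_of_lt_one hi0 hi1).trans ?_
    have h3 : (s⁻¹) ^ (m + 1) ≤ r⁻¹ := by rw [inv_pow]; exact inv_anti₀ hr0 hhi
    have h4 : (1 / 5 : ℝ) ≤ 1 - s⁻¹ := by
      have : s⁻¹ ≤ (7 / 5 : ℝ)⁻¹ := inv_anti₀ (by norm_num) hs1
      norm_num at this ⊢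
      linarith
    calc (s⁻¹) ^ (m + 1) / (1 - s⁻¹) ≤ r⁻¹ / (1 / 5) := div_le_div₀ (by positivity) h3 (by norm_num) h4
      _ = 5 / r := by field_simp
  calc _ ≤ 5 / r + 5 / r := add_le_add h1 h2
    _ = 10 / r := by ring

/-- The two-ghost inequality. -/
theorem two_ghost (hS : Gens S) {p : ℝ} (h0 : 0 < p) (h1 : p < 1) {n : ℕ} (hn : 1 ≤ n) (R : ℕ)
    {E : Finset (Sym2 Γ)} (hE : Valid S E) {u : Γ} (a : {a // a ∈ S})
    (hsub : eball S u (R + 1) ⊆ E) :
    avg E p (fun η => ind (Split n R η u (nb S u a)))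
      ≤ 80 * Real.sqrt (2 * S.card + 1) / (p * (1 - p)) / Real.sqrt n := by
  have h1p : 0 < 1 - p := sub_pos.2 h1
  set M := 4 * R + 4 with hM
  set E₀ := eball S (1 : Γ) M with hE₀
  have hv₀ : Valid S E₀ := valid_eball hS (Subset.refl _)
  have hmove : avg E p (fun η => ind (Split n R η u (nb S u a)))
      = avg E₀ p (fun η => ind (Split n R η 1 (nb S 1 a))) := by
    refine avg_translate hsub (eball_one (one_mem_ball (S := S) 0) (by omega)) p
      (fun η hη => ind_congr (split_local hS (fun e he => hE e (hη he)) a))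
      (fun η hη => ind_congr (split_local hS (fun e he => hv₀ e (hη he)) a)) fun η _ => ?_
    rw [shift_one]
    refine ind_congr ?_
    have e1 : nb S u a = u * nb S 1 a := by simp [nb]
    simp only [Split, e1]
    have hu : u = u * 1 := (mul_one u).symm
    conv_lhs => rw [show cls (shift u η) u = cls (shift u η) (u * 1) by rw [← hu],
      show csize (shift u η) u = csize (shift u η) (u * 1) by rw [← hu]]
    rw [csize_shift, csize_shift, cls_shift, (mul_right_injective u).mem_finset_image]
  rw [hmove]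
  let g : ℕ → ℝ := fun k => if k ≤ R then ghost n k else 0
  have hg0 : ∀ k, 0 ≤ g k := fun k => by
    simp only [g]; split_ifs
    · exact ghost_nonneg n k
    · exact le_rfl
  let h : Finset (Sym2 Γ) → Γ → ℝ := fun η x => ∑ b, share p η x (nb S x b)
  have hcov : ∀ z η x, h (shift z η) (z * x) = h η x := by
    intro z η x
    refine sum_congr rfl fun b _ => ?_
    have e1 : nb S (z * x) b = z * nb S x b := by simp [nb, mul_assoc]
    have e2 : s(z * x, z * nb S x b) = Sym2.map (z * ·) s(x, nb S x b) := rfl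
    simp only [share, e1, cls_shift, (mul_right_injective z).mem_finset_image, e2, mem_shift]
  have hloc : ∀ η x, Valid S η → csize η x ≤ R → h η x = h (η ∩ eball S x (2 * R)) x := by
    intro η x hv hR
    refine sum_congr rfl fun b _ => ?_
    have hedge : s(x, nb S x b) ∈ eball S x (2 * R) :=
      mem_touch (mem_image.2 ⟨1, one_mem_ball _, mul_one x⟩) b
    rw [share, share, ← cls_inter (R := 2 * R) hS hv inter_subset_right (Or.inl (by omega))]
    simp [hedge]
  have hmass := mass hS p (R := R) (M := M) (by omega) (g := g)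
    (fun k hk => if_neg (by omega)) hcov hloc
  -- the left side is the ghost event
  have hlhs : avg E₀ p (fun η => g (csize η 1) * h η 1) = p * (1 - p) *
      ∑ b, avg E₀ p (fun η => ind (nb S 1 b ∉ cls (η.erase s(1, nb S 1 b)) 1) *
        (g (csize (η.erase s(1, nb S 1 b)) 1) + g (csize (η.erase s(1, nb S 1 b)) (nb S 1 b))
          - g (csize (η.erase s(1, nb S 1 b)) 1 + csize (η.erase s(1, nb S 1 b)) (nb S 1 b)))) := by
    simp only [h, mul_sum, avg_sum]
    have step : ∀ b, avg E₀ p (fun η => g (csize η 1) * share p η 1 (nb S 1 b))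
        = p * (1 - p) * avg E₀ p (fun η => ind (nb S 1 b ∉ cls (η.erase s(1, nb S 1 b)) 1) *
          (2 * g (csize (η.erase s(1, nb S 1 b)) 1)
            - g (csize (η.erase s(1, nb S 1 b)) 1 + csize (η.erase s(1, nb S 1 b)) (nb S 1 b)))) := by
      intro b
      set v := nb S 1 b with hvdef
      have hne : (1 : Γ) ≠ v := (hS.labelling.adj_nb 1 b).ne
      set e := s((1 : Γ), v) with he
      have heE : e ∈ E₀ := mem_touch (mem_image.2 ⟨1, one_mem_ball _, mul_one 1⟩) b
      rw [avg_edge heE, ← avg_erase e p (fun η => ind (v ∉ cls η 1) *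
        (2 * g (csize η 1) - g (csize η 1 + csize η v))), ← avg_mul, ← avg_mul, ← avg_add, ← avg_mul]
      refine avg_congr _ p fun η hη => ?_
      have heη : e ∉ η := fun h => notMem_erase e E₀ (hη h)
      simp only [share, ← he, mem_insert_self, heη, if_true, if_false]
      by_cases hd : v ∈ cls η 1
      · rw [if_pos hd, ind_false (not_not.2 hd)]
        have : csize (insert e η) 1 = csize η 1 := by
          rw [csize, he, cls_insert hne, ← cls_eq (mem_cls.1 hd), union_self, csize]
        rw [this]; ring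
      · rw [if_neg hd, ind_true hd, he, csize_insert hne hd]
        ring
    rw [sum_congr rfl fun b _ => step b]
    -- reverse the edge in one copy
    let inv' : {a // a ∈ S} → {a // a ∈ S} := fun b => ⟨b.1⁻¹, hS.inv _ b.2⟩
    let D : {a // a ∈ S} → Finset (Sym2 Γ) → ℝ := fun b η =>
      ind (nb S 1 b ∉ cls (η.erase s(1, nb S 1 b)) 1) * g (csize (η.erase s(1, nb S 1 b)) 1)
    let D' : {a // a ∈ S} → Finset (Sym2 Γ) → ℝ := fun b η =>
      ind (nb S 1 b ∉ cls (η.erase s(1, nb S 1 b)) 1) *
        g (csize (η.erase s(1, nb S 1 b)) (nb S 1 b))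
    have hsym : ∀ b, avg E₀ p (D' b) = avg E₀ p (D (inv' b)) := by
      intro b
      set v := nb S 1 b with hvdef
      have hvb : v ∈ ball S 1 := by
        simpa [hvdef, nb] using mul_mem_ball_succ (one_mem_ball (S := S) 0) b.2
      have hloc1 : ∀ (y : Γ) (w : Γ) (e : Sym2 Γ), e ∈ eball S y (R + 1) →
          ∀ η, η ⊆ E₀ → ind (w ∉ cls (η.erase e) y) * g (csize (η.erase e) y)
            = ind (w ∉ cls ((η ∩ eball S y (R + 1)).erase e) y)
              * g (csize ((η ∩ eball S y (R + 1)).erase e) y) := by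
        intro y w e _ η hη
        have hv : Valid S (η.erase e) := fun f hf => hv₀ f (hη (mem_of_mem_erase hf))
        rw [show (η ∩ eball S y (R + 1)).erase e = η.erase e ∩ eball S y (R + 1) from
          (erase_inter ..).symm]
        by_cases hc : csize (η.erase e) y ≤ R + 2 ∨ csize (η.erase e ∩ eball S y (R + 1)) y ≤ R + 2
        · simp only [csize, cls_inter hS hv inter_subset_right hc]
        · rw [not_or, not_le, not_le] at hc
          simp only [g, if_neg (by omega : ¬ csize (η.erase e) y ≤ R),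
            if_neg (by omega : ¬ csize (η.erase e ∩ eball S y (R + 1)) y ≤ R)]
          ring
      have hD' : ∀ η, D' b η = ind ((1 : Γ) ∉ cls (η.erase s(1, v)) v) * g (csize (η.erase s(1, v)) v) := by
        intro η
        simp only [D', ← hvdef]
        congr 1
        refine ind_congr (not_congr ?_)
        rw [mem_cls, mem_cls]
        exact ⟨fun h => h.symm, fun h => h.symm⟩
      have hev : s(1, v) ∈ eball S v (R + 1) := by
        have : s(v, nb S v (inv' b)) ∈ eball S v (R + 1) :=
          mem_touch (mem_image.2 ⟨1, one_mem_ball _, mul_one v⟩) (inv' b)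
        simpa [inv', nb, hvdef, Sym2.eq_swap] using this
      refine avg_translate (x := v) (y := 1) (R := R + 1) (eball_one hvb (by omega))
        (eball_one (one_mem_ball (S := S) 0) (by omega)) p
        (fun η hη => by rw [hD', hD']; exact hloc1 v 1 _ hev η hη)
        (fun η hη => hloc1 1 (nb S 1 (inv' b)) _
          (mem_touch (mem_image.2 ⟨1, one_mem_ball _, mul_one 1⟩) (inv' b)) η hη) fun η _ => ?_
      rw [hD', shift_one]
      have e1 : (shift v η).erase s(1, v) = shift v (η.erase s(1, nb S 1 (inv' b))) := by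
        rw [shift, shift, image_erase (Sym2.map.injective (mul_right_injective v))]
        congr 1
        simp [inv', nb, hvdef, Sym2.eq_swap]
      have hv1 : v = v * 1 := (mul_one v).symm
      have h1v : (1 : Γ) = v * nb S 1 (inv' b) := by simp [inv', nb, hvdef]
      show _ = D (inv' b) η
      simp only [D]
      rw [e1, show csize (shift v (η.erase s(1, nb S 1 (inv' b)))) v
          = csize (shift v (η.erase s(1, nb S 1 (inv' b)))) (v * 1) by rw [← hv1],
        show cls (shift v (η.erase s(1, nb S 1 (inv' b)))) v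
          = cls (shift v (η.erase s(1, nb S 1 (inv' b)))) (v * 1) by rw [← hv1],
        csize_shift, cls_shift]
      congr 1
      refine ind_congr (not_congr ?_)
      constructor
      · intro hh
        obtain ⟨z, hz, hzv⟩ := mem_image.1 hh
        rwa [mul_left_cancel (hzv.trans h1v)] at hz
      · intro hh
        exact mem_image.2 ⟨_, hh, h1v.symm⟩
    have hsum : ∑ b, avg E₀ p (D' b) = ∑ b, avg E₀ p (D b) := by
      rw [sum_congr rfl fun b _ => hsym b]
      exact sum_nbij' inv' inv' (fun _ _ => mem_univ _) (fun _ _ => mem_univ _)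
        (fun b _ => Subtype.ext (inv_inv _)) (fun b _ => Subtype.ext (inv_inv _)) fun _ _ => rfl
    rw [← mul_sum, ← mul_sum]
    congr 1
    rw [← sub_eq_zero, ← sum_sub_distrib]
    have hdiff : ∀ b, avg E₀ p (fun η => ind (nb S 1 b ∉ cls (η.erase s(1, nb S 1 b)) 1) *
          (2 * g (csize (η.erase s(1, nb S 1 b)) 1)
            - g (csize (η.erase s(1, nb S 1 b)) 1 + csize (η.erase s(1, nb S 1 b)) (nb S 1 b))))
        - avg E₀ p (fun η => ind (nb S 1 b ∉ cls (η.erase s(1, nb S 1 b)) 1) *
          (g (csize (η.erase s(1, nb S 1 b)) 1) + g (csize (η.erase s(1, nb S 1 b)) (nb S 1 b))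
            - g (csize (η.erase s(1, nb S 1 b)) 1 + csize (η.erase s(1, nb S 1 b)) (nb S 1 b))))
        = avg E₀ p (D b) - avg E₀ p (D' b) := fun b => by
      rw [← avg_sub, ← avg_sub]
      refine avg_congr E₀ p fun η _ => ?_
      show _ = D b η - D' b η
      simp only [D, D']
      ring
    rw [sum_congr rfl fun b _ => hdiff b, sum_sub_distrib, hsum, sub_self]
  -- each summand is nonnegative and dominates the split event
  have hlow : p * (1 - p) * (avg E₀ p (fun η => ind (Split n R η 1 (nb S 1 a))) / 4)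
      ≤ avg E₀ p (fun η => g (csize η 1) * h η 1) := by
    rw [hlhs]
    refine mul_le_mul_of_nonneg_left ?_ (by positivity)
    have hpt : ∀ (b : {a // a ∈ S}) (η : Finset (Sym2 Γ)),
        ind (Split n R (η.erase s(1, nb S 1 b)) 1 (nb S 1 b)) / 4 ≤
          ind (nb S 1 b ∉ cls (η.erase s(1, nb S 1 b)) 1) *
          (g (csize (η.erase s(1, nb S 1 b)) 1) + g (csize (η.erase s(1, nb S 1 b)) (nb S 1 b))
          - g (csize (η.erase s(1, nb S 1 b)) 1 + csize (η.erase s(1, nb S 1 b)) (nb S 1 b))) := by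
      intro b η
      set η' := η.erase s(1, nb S 1 b)
      set v := nb S 1 b
      by_cases hd : v ∉ cls η' 1
      swap
      · rw [ind_false hd, ind_false fun h => hd h.1]; simp
      rw [ind_true hd, one_mul]
      by_cases hR : csize η' 1 + csize η' v ≤ R
      · simp only [g, if_pos hR, if_pos (by omega : csize η' 1 ≤ R),
          if_pos (by omega : csize η' v ≤ R), ghost_add]
        rw [add_sub_assoc]
        ring_nf
        by_cases hs : Split n R η' 1 v
        · rw [ind_true hs]
          have := mul_le_mul (half_le_ghost hn hs.2.1) (half_le_ghost hn hs.2.2.1) (by norm_num)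
            (ghost_nonneg _ _)
          linarith
        · rw [ind_false hs]
          have := mul_nonneg (ghost_nonneg n (csize η' 1)) (ghost_nonneg n (csize η' v))
          linarith
      · rw [ind_false fun h => hR h.2.2.2]
        simp only [g, if_neg hR, zero_div]
        have := hg0 (csize η' 1)
        have := hg0 (csize η' v)
        simp only [g] at *
        linarith
    refine le_trans ?_ (single_le_sum (fun b _ => avg_nonneg E₀ h0.le h1.le fun η _ =>
      le_trans (div_nonneg (ind_nonneg _) (by norm_num)) (hpt b η)) (mem_univ a))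
    refine le_trans ?_ (avg_mono E₀ h0.le h1.le fun η _ => hpt a η)
    rw [div_eq_inv_mul, ← avg_mul]
    refine avg_mono E₀ h0.le h1.le fun η _ => ?_
    rw [div_eq_inv_mul]
    refine mul_le_mul_of_nonneg_left (ind_mono fun hs => ?_) (by norm_num)
    have : s(1, nb S 1 a) ∉ η := fun hm =>
      hs.1 (mem_cls.2 (cl_edge (hS.labelling.adj_nb 1 a).ne hm))
    rwa [erase_eq_of_notMem this]
  -- the right side is at most the martingale, scale by scale
  have hup : avg E₀ p (fun η => g (csize η 1) / csize η 1 * ∑ x ∈ cls η 1, h η x)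
      ≤ 20 * Real.sqrt (2 * S.card + 1) / Real.sqrt n := by
    let c : ℕ → ℝ := fun j => min ((n : ℝ)⁻¹) ((2 : ℝ) ^ j)⁻¹
    have hc0 : ∀ j, 0 ≤ c j := fun j => le_min (by positivity) (by positivity)
    have hpt : ∀ η, η ⊆ E₀ → g (csize η 1) / csize η 1 * ∑ x ∈ cls η 1, h η x
        ≤ ∑ j ∈ range (R + 1), 2 * c j *
          (ind (csize η 1 < 2 ^ (j + 1) + 1 ∧ csize η 1 ≤ M) * |dev S p η|) := by
      intro η _
      simp only [h, two_dev hS]
      have hnn : ∀ j, 0 ≤ 2 * c j *
          (ind (csize η 1 < 2 ^ (j + 1) + 1 ∧ csize η 1 ≤ M) * |dev S p η|) :=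
        fun j => mul_nonneg (mul_nonneg zero_le_two (hc0 j)) (mul_nonneg (ind_nonneg _) (abs_nonneg _))
      by_cases hR : csize η 1 ≤ R
      swap
      · simp only [g, if_neg hR, zero_div, zero_mul]
        exact sum_nonneg fun j _ => hnn j
      have hj : Nat.log 2 (csize η 1) ∈ range (R + 1) :=
        mem_range.2 (by have := Nat.log_le_self 2 (csize η 1); omega)
      refine le_trans ?_ (single_le_sum (fun j _ => hnn j) hj)
      rw [ind_true ⟨by
        have := Nat.lt_pow_succ_log_self one_lt_two (csize η 1)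
        simp only [Nat.succ_eq_add_one] at this
        omega, by omega⟩, one_mul]
      simp only [g, if_pos hR]
      calc ghost n (csize η 1) / csize η 1 * (2 * dev S p η)
          ≤ ghost n (csize η 1) / csize η 1 * (2 * |dev S p η|) :=
            mul_le_mul_of_nonneg_left (by linarith [le_abs_self (dev S p η)])
              (div_nonneg (ghost_nonneg _ _) (Nat.cast_nonneg _))
        _ ≤ c (Nat.log 2 (csize η 1)) * (2 * |dev S p η|) :=
            mul_le_mul_of_nonneg_right (dyadic_term (csize_pos η 1)) (by positivity)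
        _ = _ := by ring
    refine (avg_mono E₀ h0.le h1.le hpt).trans ?_
    rw [avg_sum]
    set B := Real.sqrt (2 * S.card + 1) with hB
    have hj : ∀ j ∈ range (R + 1), avg E₀ p (fun η => 2 * c j *
        (ind (csize η 1 < 2 ^ (j + 1) + 1 ∧ csize η 1 ≤ M) * |dev S p η|))
        ≤ 2 * B * (c j * Real.sqrt 2 ^ j) := by
      intro j _
      rw [avg_mul]
      refine (mul_le_mul_of_nonneg_left (dev_abs_le hS h0.le h1.le M (2 ^ (j + 1)))
        (mul_nonneg zero_le_two (hc0 j))).trans ?_
      have : Real.sqrt ((S.card : ℝ) * (2 ^ (j + 1) : ℕ) + 1) ≤ B * Real.sqrt 2 ^ j := by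
        have e : Real.sqrt 2 ^ j = Real.sqrt (2 ^ j) := by
          rw [eq_comm, Real.sqrt_eq_iff_mul_self_eq (by positivity) (by positivity), ← mul_pow,
            Real.mul_self_sqrt (by norm_num)]
        rw [hB, e, ← Real.sqrt_mul (by positivity)]
        refine Real.sqrt_le_sqrt ?_
        push_cast [pow_succ]
        nlinarith [one_le_pow₀ (by norm_num : (1 : ℝ) ≤ 2) (n := j)]
      calc 2 * c j * _ ≤ 2 * c j * (B * Real.sqrt 2 ^ j) :=
            mul_le_mul_of_nonneg_left this (mul_nonneg zero_le_two (hc0 j))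
        _ = _ := by ring
    refine (sum_le_sum hj).trans ?_
    rw [← mul_sum]
    refine (mul_le_mul_of_nonneg_left (dyadic_sum hn (R + 1)) (by positivity)).trans (le_of_eq ?_)
    ring
  have hfin := hlow.trans (hmass.le.trans hup)
  rw [div_div, le_div_iff₀ (by positivity)]
  rw [le_div_iff₀ (by positivity)] at hfin
  linarith

end Vale.Agent.P151
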