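import Vale.Agent.P151.Decay

/-!
# The finite-volume tail and percolation
-/

namespace Vale.Agent.P151

open Finset Vale.Agent.P165 MeasureTheory

variable {Γ : Type} [Group Γ] [DecidableEq Γ] {S : Finset Γ}

/-- Left translation of the Cayley graph. -/
def translate (hS : Gens S) (g : Γ) : cayley S ≃g cayley S where
  toEquiv := Equiv.mulLeft g
  map_rel_iff' := by
    intro a b
    simp [hS.adj, mul_assoc]

theorem countable (hS : Gens S) (hc : (cayley S).Connected) : Countable Γ :=
  countable_of_connected hS.labelling.listing hc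

theorem infAt_le_tail (hS : Gens S) [Countable Γ] (p : unitInterval) (n : ℕ) :
    (perc (cayley S) p).real (infAt (cayley S) 1) ≤ tail S (p : ℝ) n := by
  classical
  set F := eball S (1 : Γ) n with hFdef
  have hF : ↑F ⊆ (cayley S).edgeSet := fun e he => touch_adj hS.labelling.listing he
  let good := F.powerset.filter fun η => n ≤ csize η 1
  have hsub : infAt (cayley S) 1 ⊆ ⋃ η ∈ good, pattern (cayley S) F η := by
    intro ω hω
    set O := F.filter fun e => ∀ h : e ∈ (cayley S).edgeSet, ω ⟨e, h⟩ = true with hO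
    have hpat : ω ∈ pattern (cayley S) F O := fun e he =>
      ⟨fun h => mem_filter.2 ⟨he, fun _ => h⟩, fun h => (mem_filter.1 h).2 e.2⟩
    suffices hbig : n ≤ csize O 1 from
      Set.mem_biUnion (mem_filter.2 ⟨mem_powerset.2 (filter_subset _ _), hbig⟩) hpat
    by_contra hlt
    refine hω ((cls O 1).finite_toSet.subset fun z hz => ?_)
    obtain ⟨w⟩ := (hz : (openGraph (cayley S) ω).Reachable 1 z)
    have : ∀ {u v : Γ} (w : (openGraph (cayley S) ω).Walk u v), u ∈ cls O 1 → v ∈ cls O 1 := by
      intro u v w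
      induction w with
      | nil => exact id
      | @cons a b c hadj _ ih =>
        intro ha
        refine ih (mem_cls.2 ((mem_cls.1 ha).trans ?_))
        obtain ⟨hG, hop⟩ := hadj
        refine cl_edge hG.ne (mem_filter.2 ⟨?_, fun _ => hop⟩)
        obtain ⟨s, hs⟩ := (hS.labelling.adj a b).1 hG
        have hb := cls_subset_ball hS (valid_eball hS (filter_subset _ _) : Valid S O) ha
        rw [inv_one, one_mul] at hb
        rw [← hs]
        exact mem_touch (mem_image.2 ⟨a, ball_mono (by omega) hb, one_mul a⟩) s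
    exact this w (self_mem_cls O 1)
  refine (measureReal_mono hsub (measure_ne_top _ _)).trans ?_
  refine (measureReal_biUnion_finset_le _ _).trans (le_of_eq ?_)
  rw [tail, avg, sum_filter]
  refine sum_congr rfl fun η hη => ?_
  by_cases h : n ≤ csize η 1
  · rw [if_pos h, ind_true h, mul_one, (real_pattern p hF (mem_powerset.1 hη)).2]
  · rw [if_neg h, ind_false h, mul_zero]

/-- A vanishing tail rules out infinite clusters. -/
theorem no_infinite (hS : Gens S) (hc : (cayley S).Connected) (p : unitInterval)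
    (h : Filter.Tendsto (fun n => tail S (p : ℝ) n) Filter.atTop (nhds 0)) :
    perc (cayley S) p (hasInfinite (cayley S)) = 0 := by
  have := countable hS hc
  have h1 : perc (cayley S) p (infAt (cayley S) 1) = 0 := by
    have hle : (perc (cayley S) p).real (infAt (cayley S) 1) ≤ 0 :=
      ge_of_tendsto h (Filter.Eventually.of_forall (infAt_le_tail hS p))
    exact (measureReal_eq_zero_iff (measure_ne_top _ _)).1 (le_antisymm hle measureReal_nonneg)
  rw [hasInfinite_eq, measure_iUnion_null_iff]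
  intro y
  have := infAt_map (translate hS y) p 1 (measurableSet_infAt hS.labelling.listing _)
  simp [translate] at this
  simp [this, h1]

theorem below_pc (hS : Gens S) {q : unitInterval} (hq : (q : ℝ) < pc (cayley S)) :
    perc (cayley S) q (hasInfinite (cayley S)) = 0 := by
  by_contra hne
  refine absurd (csInf_le ?_ (show (q : ℝ) ∈ Subtype.val '' {p : unitInterval |
    0 < perc (cayley S) p (hasInfinite (cayley S))} from ⟨q, pos_iff_ne_zero.2 hne, rfl⟩)) (not_le.2 hq)
  exact ⟨0, by rintro _ ⟨x, -, rfl⟩; exact x.2.1⟩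

theorem pc_le_one (hS : Gens S) [Infinite Γ] (hc : (cayley S).Connected) :
    (Subtype.val '' {p : unitInterval | 0 < perc (cayley S) p (hasInfinite (cayley S))}).Nonempty ∧
      pc (cayley S) ≤ 1 := by
  have hmem : (1 : unitInterval) ∈ {p : unitInterval |
      0 < perc (cayley S) p (hasInfinite (cayley S))} := by
    refine lt_of_lt_of_le zero_lt_one ((perc_one_unique hc).symm.le.trans (measure_mono ?_))
    exact fun ω hω => ⟨hω.exists.choose, hω.exists.choose_spec⟩
  exact ⟨⟨_, 1, hmem, rfl⟩, csInf_le ⟨0, by rintro _ ⟨x, -, rfl⟩; exact x.2.1⟩ ⟨1, hmem, rfl⟩⟩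

theorem phiIn_single (hS : Gens S) (q : ℝ) :
    phiIn (nb S) {(1 : Γ)} q 1 = q * S.card := by
  classical
  have hτ : tauIn (nb S) {(1 : Γ)} q 1 1 = 1 := by
    rw [tauIn]
    exact (avg_congr _ q fun η _ => if_pos (SimpleGraph.Reachable.refl _)).trans (avg_one _ q)
  rw [phiIn, sum_singleton]
  congr 1
  rw [sum_congr rfl fun a _ => if_pos (show nb S 1 a ∉ ({1} : Finset Γ) from fun h =>
    (hS.labelling.adj_nb 1 a).ne (mem_singleton.1 h).symm), sum_const, card_univ, Fintype.card_coe,
    nsmul_eq_mul, hτ, mul_one]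

theorem tendsto_of_decay {C δ : ℝ} (hδ : 0 < δ) {u : ℕ → ℝ} (h0 : ∀ n, 0 ≤ u n)
    (hu : ∀ n : ℕ, 1 ≤ n → u n ≤ C * (n : ℝ) ^ (-δ)) :
    Filter.Tendsto u Filter.atTop (nhds 0) := by
  have h := ((tendsto_rpow_neg_atTop hδ).comp tendsto_natCast_atTop_atTop).const_mul C
  rw [mul_zero] at h
  exact squeeze_zero' (Filter.Eventually.of_forall h0)
    (Filter.eventually_atTop.2 ⟨1, hu⟩) h

theorem pc_pos (hS : Gens S) [Infinite Γ] (hc : (cayley S).Connected) : 0 < pc (cayley S) := by
  set q : ℝ := 1 / (S.card + 1) with hq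
  have hq0 : 0 < q := by positivity
  have hq1 : q ≤ 1 := by rw [hq, div_le_one (by positivity)]; linarith [Nat.cast_nonneg (α := ℝ) S.card]
  have hphi : phiIn (nb S) {(1 : Γ)} q 1 < 1 := by
    rw [phiIn_single hS, hq, one_div_mul_eq_div, div_lt_one (by positivity)]
    linarith
  obtain ⟨C, δ, hδ, hdec⟩ := tail_decay hS hq0.le hq1 (T := {(1 : Γ)}) (mem_singleton_self 1)
    (L := 0) (by simp [ball]) hphi
  refine lt_of_lt_of_le hq0 (le_csInf (pc_le_one hS hc).1 ?_)
  rintro _ ⟨p, hp, rfl⟩
  by_contra hlt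
  rw [not_le] at hlt
  have hzero := no_infinite hS hc p (tendsto_of_decay hδ (fun n => tail_nonneg p.2.1 p.2.2 n)
    fun n hn => (tail_mono_param p.2.1 hlt.le hq1 n).trans (hdec n hn))
  have hp' : 0 < perc (cayley S) p (hasInfinite (cayley S)) := hp
  rw [hzero] at hp'
  exact lt_irrefl _ hp'

/-- Below the threshold the tail decays polynomially. -/
theorem decay_below (hS : Gens S) [Infinite Γ] (hc : (cayley S).Connected) {p : ℝ} (h0 : 0 < p)
    (hp : p < pc (cayley S)) :
    ∃ C δ : ℝ, 0 < δ ∧ ∀ n : ℕ, 1 ≤ n → tail S p n ≤ C * (n : ℝ) ^ (-δ) := by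
  classical
  have := countable hS hc
  have hle1 := (pc_le_one hS hc).2
  set p₁ : ℝ := (p + pc (cayley S)) / 2 with hp1
  have h01 : p < p₁ := by linarith
  have h1 : p₁ < 1 := by linarith
  have h10 : 0 ≤ p₁ := by linarith
  by_cases hphi : ∀ q ∈ Set.Icc p p₁, ∀ T : Finset Γ, (1 : Γ) ∈ T → 1 ≤ phiIn (nb S) T q 1
  · exfalso
    have hpos := infAt_pos_of_phi hS.labelling (1 : Γ) ⟨p₁, h10, h1.le⟩ h0 h01 h1 hphi
    have hsub : infAt (cayley S) (1 : Γ) ⊆ hasInfinite (cayley S) := by
      rw [hasInfinite_eq]; exact Set.subset_iUnion (fun y => infAt (cayley S) y) 1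
    have := hpos.trans_le (measure_mono hsub)
    rw [below_pc hS (show ((⟨p₁, h10, h1.le⟩ : unitInterval) : ℝ) < pc (cayley S) by
      show p₁ < _; linarith)] at this
    exact lt_irrefl _ this
  · push Not at hphi
    obtain ⟨q, hq, T, hT, hlt⟩ := hphi
    obtain ⟨L, hL⟩ : ∃ L, T ⊆ ball S L := by
      refine ⟨T.sup fun t => ((hc.preconnected 1 t).some).length, fun t ht => ?_⟩
      have := mem_ball_of_walk hS (hc.preconnected 1 t).some
      rw [inv_one, one_mul] at this
      exact ball_mono (le_sup (f := fun t => ((hc.preconnected 1 t).some).length) ht) this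
    have hq0 : 0 ≤ q := h0.le.trans hq.1
    have hq1 : q ≤ 1 := hq.2.trans h1.le
    obtain ⟨C, δ, hδ, hdec⟩ := tail_decay hS hq0 hq1 hT hL hlt
    exact ⟨C, δ, hδ, fun n hn => (tail_mono_param h0.le hq.1 hq1 n).trans (hdec n hn)⟩

end Vale.Agent.P151
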