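import Vale.Agent.P151.Mass

/-!
# Return probabilities bound averaged connections in small clusters
-/

namespace Vale.Agent.P151

open Finset Vale.Agent.P165

variable {Γ : Type} [Group Γ] [DecidableEq Γ] {S : Finset Γ}

variable (S) in
/-- Transition probabilities of simple random walk. -/
noncomputable def step (i : ℕ) (x y : Γ) : ℝ := walkCount (nb S) i y x / (S.card : ℝ) ^ i

theorem walkCount_shift (z : Γ) : ∀ (i : ℕ) (y x : Γ),
    walkCount (nb S) i (z * y) (z * x) = walkCount (nb S) i y x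
  | 0, y, x => by simp [walkCount]
  | i + 1, y, x => by
      simp only [walkCount]
      refine sum_congr rfl fun a _ => ?_
      rw [show nb S (z * x) a = z * nb S x a by simp [nb, mul_assoc]]
      exact walkCount_shift z i y _

theorem walkCount_last (hS : Gens S) : ∀ (n : ℕ) (y v : Γ),
    walkCount (nb S) (n + 1) y v = ∑ a, walkCount (nb S) n (nb S y a) v
  | 0, y, v => by
      simp only [walkCount]
      refine sum_nbij' (fun a => ⟨a.1⁻¹, hS.inv _ a.2⟩) (fun a => ⟨a.1⁻¹, hS.inv _ a.2⟩)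
        (fun _ _ => mem_univ _) (fun _ _ => mem_univ _) (fun a _ => Subtype.ext (inv_inv _))
        (fun a _ => Subtype.ext (inv_inv _)) fun a _ => ?_
      refine if_congr ?_ rfl rfl
      simp only [nb]
      exact eq_mul_inv_iff_mul_eq.symm
  | n + 1, y, v => by
      show (∑ b, walkCount (nb S) (n + 1) y (nb S v b)) = _
      rw [sum_congr rfl fun b _ => walkCount_last hS n y (nb S v b), sum_comm]
      rfl

theorem walkCount_symm (hS : Gens S) : ∀ (n : ℕ) (y v : Γ),
    walkCount (nb S) n y v = walkCount (nb S) n v y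
  | 0, y, v => by simp only [walkCount, eq_comm]
  | n + 1, y, v => by
      rw [walkCount_last hS n v y]
      simp only [walkCount]
      exact sum_congr rfl fun a _ => walkCount_symm hS n y _

theorem walkCount_ball : ∀ (i : ℕ) {T : Finset Γ} {v : Γ} (_ : ∀ b ∈ ball S i, v * b ∈ T)
    (k : ℕ) (w : Γ),
    walkCount (nb S) (i + k) w v = ∑ x ∈ T, walkCount (nb S) i x v * walkCount (nb S) k w x
  | 0, T, v, hT, k, w => by
      have : v ∈ T := by simpa using hT 1 (one_mem_ball 0)
      simp [walkCount, this]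
  | i + 1, T, v, hT, k, w => by
      rw [Nat.succ_add]
      simp only [walkCount, sum_mul]
      rw [sum_comm]
      refine sum_congr rfl fun a _ => walkCount_ball i (fun b hb => ?_) k w
      have hb' : a.1 * b ∈ ball S (i + 1) := by
        rw [Nat.add_comm]
        exact mem_ball_add (by simpa using mul_mem_ball_succ (one_mem_ball (S := S) 0) a.2) hb
      simpa [nb, mul_assoc] using hT _ hb'

theorem walkCount_sum : ∀ (i : ℕ) {T : Finset Γ} {v : Γ} (_ : ∀ b ∈ ball S i, v * b ∈ T),
    ∑ x ∈ T, walkCount (nb S) i x v = (S.card : ℝ) ^ i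
  | 0, T, v, hT => by
      have : v ∈ T := by simpa using hT 1 (one_mem_ball 0)
      simp [walkCount, this]
  | i + 1, T, v, hT => by
      simp only [walkCount]
      rw [sum_comm, sum_congr rfl fun a _ => walkCount_sum i (T := T) (v := nb S v a) fun b hb => ?_,
        sum_const, card_univ, Fintype.card_coe, nsmul_eq_mul, pow_succ']
      have hb' : a.1 * b ∈ ball S (i + 1) := by
        rw [Nat.add_comm]
        exact mem_ball_add (by simpa using mul_mem_ball_succ (one_mem_ball (S := S) 0) a.2) hb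
      simpa [nb, mul_assoc] using hT _ hb'

variable (S) in
/-- The walks of length `i` inside a finite set. -/
noncomputable def pairs (K : Finset Γ) (i : ℕ) : ℝ :=
  ∑ x ∈ K, ∑ y ∈ K, walkCount (nb S) i y x

variable (S) in
/-- The walks into `z` from a finite set. -/
noncomputable def into (K : Finset Γ) (i : ℕ) (z : Γ) : ℝ := ∑ x ∈ K, walkCount (nb S) i z x

theorem pairs_eq (hS : Gens S) (K : Finset Γ) {i j L : ℕ} (hi : i ≤ L) :
    pairs S K (i + j)
      = ∑ z ∈ (K ×ˢ ball S L).image (fun q => q.1 * q.2), into S K i z * into S K j z := by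
  simp only [pairs, into, sum_mul_sum]
  rw [sum_comm (s := (K ×ˢ ball S L).image fun q => q.1 * q.2)]
  refine sum_congr rfl fun x hx => ?_
  rw [sum_comm (s := (K ×ˢ ball S L).image fun q => q.1 * q.2)]
  refine sum_congr rfl fun y _ => ?_
  rw [walkCount_ball i (T := (K ×ˢ ball S L).image fun q => q.1 * q.2)
    (fun b hb => mem_image.2 ⟨(x, b), mem_product.2 ⟨hx, ball_mono hi hb⟩, rfl⟩)]
  exact sum_congr rfl fun z _ => by rw [walkCount_symm hS j y z]

theorem walkCount_diag_pos (hS : Gens S) (hne : S.Nonempty) : ∀ (i : ℕ) (x : Γ),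
    0 < walkCount (nb S) (2 * i) x x
  | 0, x => by simp [walkCount]
  | i + 1, x => by
      obtain ⟨a, ha⟩ := hne
      rw [show 2 * (i + 1) = 2 * i + 1 + 1 by ring, walkCount]
      refine lt_of_lt_of_le ?_ (single_le_sum
        (fun b _ => walkCount_nonneg _ _ _ _) (mem_univ (⟨a, ha⟩ : {a // a ∈ S})))
      rw [walkCount]
      refine lt_of_lt_of_le ?_ (single_le_sum
        (fun b _ => walkCount_nonneg _ _ _ _) (mem_univ (⟨a⁻¹, hS.inv a ha⟩ : {a // a ∈ S})))
      simpa [nb] using walkCount_diag_pos hS ⟨a, ha⟩ i x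

theorem pairs_pos (hS : Gens S) (hne : S.Nonempty) {K : Finset Γ} (hK : K.Nonempty) (i : ℕ) :
    0 < pairs S K (2 * i) := by
  obtain ⟨x, hx⟩ := hK
  refine lt_of_lt_of_le (walkCount_diag_pos hS hne i x) ?_
  refine le_trans ?_ (single_le_sum (f := fun x => ∑ y ∈ K, walkCount (nb S) (2 * i) y x)
    (fun x _ => sum_nonneg fun y _ => walkCount_nonneg _ _ _ _) hx)
  exact single_le_sum (f := fun y => walkCount (nb S) (2 * i) y x)
    (fun y _ => walkCount_nonneg _ _ _ _) hx

theorem pairs_logconvex (hS : Gens S) (K : Finset Γ) (i : ℕ) :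
    pairs S K (2 * (i + 1)) ^ 2 ≤ pairs S K (2 * i) * pairs S K (2 * (i + 2)) := by
  rw [show 2 * (i + 1) = i + (i + 2) by ring, show 2 * i = i + i by ring,
    show 2 * (i + 2) = (i + 2) + (i + 2) by ring, pairs_eq hS K (L := i + 2) (by omega),
    pairs_eq hS K (L := i + 2) (by omega), pairs_eq hS K (L := i + 2) (by omega)]
  simpa only [← sq] using sum_mul_sq_le_sq_mul_sq _ (into S K i) (into S K (i + 2))

theorem walkCount_le_return (hS : Gens S) (J : ℕ) (x y : Γ) :
    walkCount (nb S) (2 * J) y x ≤ walkCount (nb S) (2 * J) 1 1 := by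
  have hd : ∀ z : Γ, walkCount (nb S) (2 * J) z z = walkCount (nb S) (2 * J) 1 1 := fun z => by
    simpa using walkCount_shift z (2 * J) 1 1
  set T := (ball S J).image (x * ·) ∪ (ball S J).image (y * ·) with hT
  have hx : ∀ b ∈ ball S J, x * b ∈ T := fun b hb => mem_union_left _ (mem_image_of_mem _ hb)
  have hy : ∀ b ∈ ball S J, y * b ∈ T := fun b hb => mem_union_right _ (mem_image_of_mem _ hb)
  have h2 := sum_mul_sq_le_sq_mul_sq T (fun z => walkCount (nb S) J z x)
    (fun z => walkCount (nb S) J z y)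
  have e1 : ∑ z ∈ T, walkCount (nb S) J z x * walkCount (nb S) J z y
      = walkCount (nb S) (2 * J) y x := by
    rw [two_mul, walkCount_ball J hx]
    exact sum_congr rfl fun z _ => by rw [walkCount_symm hS J z y]
  have e2 : ∀ w, (∀ b ∈ ball S J, w * b ∈ T) →
      ∑ z ∈ T, walkCount (nb S) J z w ^ 2 = walkCount (nb S) (2 * J) 1 1 := by
    intro w hw
    rw [← hd w, two_mul, walkCount_ball J hw]
    exact sum_congr rfl fun z _ => by rw [sq, walkCount_symm hS J w z]
  rw [e1, e2 x hx, e2 y hy, ← sq] at h2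
  exact (abs_le_of_sq_le_sq' h2 (walkCount_nonneg _ _ _ _)).2

theorem convex_seq {b : ℕ → ℝ} (hb : ∀ i, 2 * b (i + 1) ≤ b i + b (i + 2)) {k J : ℕ}
    (hk : k ≤ J) : (J : ℝ) * b k ≤ ((J : ℝ) - k) * b 0 + (k : ℝ) * b J := by
  have hmono : Monotone fun i => b (i + 1) - b i :=
    monotone_nat_of_le_succ fun i => by linarith [hb i]
  have h1 : b k - b 0 ≤ (k : ℝ) * (b (k + 1) - b k) := by
    rw [← sum_range_sub b k]
    refine (sum_le_sum fun i hi => hmono (le_of_lt (mem_range.1 hi))).trans (le_of_eq ?_)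
    rw [sum_const, card_range, nsmul_eq_mul]
  have h2 : ((J : ℝ) - k) * (b (k + 1) - b k) ≤ b J - b k := by
    obtain ⟨l, rfl⟩ := Nat.exists_eq_add_of_le hk
    rw [show b (k + l) - b k = ∑ i ∈ range l, (b (k + (i + 1)) - b (k + i)) from
      (sum_range_sub (fun i => b (k + i)) l).symm]
    refine le_trans (le_of_eq ?_) (sum_le_sum fun i _ => hmono (Nat.le_add_right k i))
    rw [sum_const, card_range, nsmul_eq_mul]
    push_cast
    ring
  have h3 : (0 : ℝ) ≤ (J : ℝ) - k := sub_nonneg.2 (by exact_mod_cast hk)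
  nlinarith [mul_le_mul_of_nonneg_left h1 h3,
    mul_le_mul_of_nonneg_left h2 (Nat.cast_nonneg (α := ℝ) k)]

theorem pairs_le (hS : Gens S) (hne : S.Nonempty) {K : Finset Γ} (hK : K.Nonempty) {k J : ℕ}
    (hk : k ≤ J) (hJ : 1 ≤ J) :
    pairs S K (2 * k) / (S.card : ℝ) ^ (2 * k)
      ≤ K.card * ((K.card : ℝ) * step S (2 * J) 1 1) ^ ((k : ℝ) / J) := by
  have hd : (0 : ℝ) < S.card := by exact_mod_cast hne.card_pos
  have hK0 : (0 : ℝ) < K.card := by exact_mod_cast hK.card_pos
  let a : ℕ → ℝ := fun i => pairs S K (2 * i) / (S.card : ℝ) ^ (2 * i)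
  have ha : ∀ i, 0 < a i := fun i => div_pos (pairs_pos hS hne hK i) (pow_pos hd _)
  have hb : ∀ i, 2 * Real.log (a (i + 1)) ≤ Real.log (a i) + Real.log (a (i + 2)) := by
    intro i
    rw [two_mul, ← Real.log_mul (ha _).ne' (ha _).ne', ← Real.log_mul (ha _).ne' (ha _).ne']
    refine Real.log_le_log (mul_pos (ha _) (ha _)) ?_
    simp only [a]
    rw [div_mul_div_comm, div_mul_div_comm, ← pow_add, ← pow_add,
      show 2 * (i + 1) + 2 * (i + 1) = 2 * i + 2 * (i + 2) by ring, ← sq]
    exact div_le_div_of_nonneg_right (pairs_logconvex hS K i) (by positivity)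
  have ha0 : a 0 = K.card := by simp [a, pairs, walkCount]
  have haJ : a J ≤ (K.card : ℝ) * ((K.card : ℝ) * step S (2 * J) 1 1) := by
    simp only [a, step, pairs]
    rw [← mul_assoc, ← mul_div_assoc]
    refine div_le_div_of_nonneg_right ?_ (by positivity)
    refine (sum_le_sum fun x _ => sum_le_sum fun y _ => walkCount_le_return hS J x y).trans
      (le_of_eq ?_)
    simp [mul_assoc]
  have hstep : 0 < (K.card : ℝ) * step S (2 * J) 1 1 :=
    mul_pos hK0 (div_pos (walkCount_diag_pos hS hne J 1) (pow_pos hd _))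
  have hc := convex_seq (b := fun i => Real.log (a i)) hb hk
  have hJ' : (0 : ℝ) < J := by exact_mod_cast hJ
  show a k ≤ _
  refine (Real.log_le_log_iff (ha k) (mul_pos hK0 (Real.rpow_pos_of_pos hstep _))).1 ?_
  rw [Real.log_mul hK0.ne' (Real.rpow_pos_of_pos hstep _).ne', Real.log_rpow hstep]
  have hlJ := Real.log_le_log (ha J) haJ
  rw [Real.log_mul hK0.ne' hstep.ne'] at hlJ
  simp only [ha0] at hc
  set X := Real.log ((K.card : ℝ) * step S (2 * J) 1 1)
  have : (J : ℝ) * Real.log (a k) ≤ J * (Real.log (K.card : ℝ) + (k : ℝ) / J * X) := by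
    rw [mul_add, ← mul_assoc, mul_div_cancel₀ _ hJ'.ne']
    nlinarith [mul_le_mul_of_nonneg_left hlJ (Nat.cast_nonneg (α := ℝ) k)]
  exact le_of_mul_le_mul_left this hJ'

/-- Connections inside small clusters, averaged along the walk, are rare. -/
theorem trunc_le (hS : Gens S) (hne : S.Nonempty) {p : ℝ} (h0 : 0 ≤ p) (h1 : p ≤ 1) {k J N M : ℕ}
    (hk : k ≤ J) (hJ : 1 ≤ J) (hM : 4 * N ≤ M) :
    avg (eball S 1 M) p (fun η => ind (csize η 1 ≤ N) * ∑ y ∈ cls η 1, step S (2 * k) 1 y)
      ≤ ((N : ℝ) * step S (2 * J) 1 1) ^ ((k : ℝ) / J) := by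
  have hcov : ∀ z η x, (∑ y ∈ cls (shift z η) (z * x), step S (2 * k) (z * x) y)
      = ∑ y ∈ cls η x, step S (2 * k) x y := by
    intro z η x
    rw [cls_shift, sum_image fun a _ b _ h => mul_left_cancel h]
    exact sum_congr rfl fun y _ => by rw [step, step, walkCount_shift]
  have hloc : ∀ η x, Valid S η → csize η x ≤ N → (∑ y ∈ cls η x, step S (2 * k) x y)
      = ∑ y ∈ cls (η ∩ eball S x (2 * N)) x, step S (2 * k) x y := fun η x hv hx => by
    rw [cls_inter (R := 2 * N) hS hv inter_subset_right (Or.inl (by omega))]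
  have hmass := mass hS p (R := N) (M := M) hM (g := fun i => ind (i ≤ N))
    (fun i hi => ind_false (by omega)) (h := fun η x => ∑ y ∈ cls η x, step S (2 * k) x y) hcov hloc
  rw [hmass]
  have hnn : 0 ≤ step S (2 * J) (1 : Γ) 1 :=
    div_nonneg (walkCount_nonneg _ _ _ _) (by positivity)
  refine le_trans (avg_mono _ h0 h1 fun η _ => ?_) (avg_const _ p _).le
  by_cases hN : csize η 1 ≤ N
  swap
  · rw [ind_false hN, zero_div, zero_mul]
    exact Real.rpow_nonneg (mul_nonneg (Nat.cast_nonneg _) hnn) _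
  rw [ind_true hN, one_div, inv_mul_le_iff₀ (by exact_mod_cast csize_pos η 1)]
  have e : ∑ x ∈ cls η 1, ∑ y ∈ cls η x, step S (2 * k) x y
      = pairs S (cls η 1) (2 * k) / (S.card : ℝ) ^ (2 * k) := by
    rw [pairs, sum_div]
    refine sum_congr rfl fun x hx => ?_
    rw [← cls_eq (mem_cls.1 hx), sum_div]
    exact sum_congr rfl fun y _ => rfl
  rw [e]
  refine (pairs_le hS hne ⟨1, self_mem_cls η 1⟩ hk hJ).trans ?_
  refine mul_le_mul_of_nonneg_left ?_ (Nat.cast_nonneg _)
  refine Real.rpow_le_rpow (mul_nonneg (Nat.cast_nonneg _) hnn) ?_ (by positivity)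
  exact mul_le_mul_of_nonneg_right (by exact_mod_cast hN) hnn

end Vale.Agent.P151
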