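import Vale.Agent.P151.Ghost
import Vale.Agent.P151.Walk

/-!
# Gluing along a path, and the main recursion for the cluster tail
-/

namespace Vale.Agent.P151

open Finset Vale.Agent.P165

variable {Γ : Type} [Group Γ] [DecidableEq Γ] {S : Finset Γ}

theorem exists_word : ∀ {r : ℕ} {y : Γ}, y ∈ ball S r →
    ∃ l : List {a // a ∈ S}, l.length ≤ r ∧ (l.map Subtype.val).prod = y
  | 0, y, hy => ⟨[], le_rfl, by simpa [ball, eq_comm] using hy⟩
  | r + 1, y, hy => by
      rw [ball, mem_union] at hy
      rcases hy with hy | hy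
      · obtain ⟨l, hl, rfl⟩ := exists_word hy
        exact ⟨l, by omega, rfl⟩
      · obtain ⟨⟨z, a⟩, hq, rfl⟩ := mem_image.1 hy
        obtain ⟨hz, ha⟩ := mem_product.1 hq
        obtain ⟨l, hl, rfl⟩ := exists_word hz
        exact ⟨l ++ [⟨a, ha⟩], by simp; omega, by simp⟩

variable (S) in
/-- Two large clusters at `u` and `x` are distinct. -/
def Apart (n : ℕ) (η : Finset (Sym2 Γ)) (u x : Γ) : Prop :=
  x ∉ cls η u ∧ n ≤ csize η u ∧ n ≤ csize η x

omit [Group Γ] in
theorem cls_eq_left {η : Finset (Sym2 Γ)} {u x : Γ} (h : x ∈ cls η u) : cls η x = cls η u :=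
  (cls_eq (mem_cls.1 h)).symm

/-- Joining two large clusters along a path costs a factor `1 / p` per edge. -/
theorem apart_le (hS : Gens S) {p : ℝ} (h0 : 0 < p) (h1 : p < 1) {n : ℕ} (hn : 1 ≤ n)
    (R : ℕ) {M : ℕ} : ∀ (l : List {a // a ∈ S}) (u : Γ) (T : ℕ), u ∈ ball S T →
      T + l.length + 2 * R + 1 ≤ M →
      avg (eball S 1 M) p (fun η => ind (Apart n η u (u * (l.map Subtype.val).prod)))
        ≤ l.length * p⁻¹ ^ l.length *
          (80 * Real.sqrt (2 * S.card + 1) / (p * (1 - p)) / Real.sqrt n + 2 * tail S p R) := by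
  set B := 80 * Real.sqrt (2 * S.card + 1) / (p * (1 - p)) / Real.sqrt n + 2 * tail S p R with hB
  have hB0 : 0 ≤ B := by
    have : 0 < 1 - p := sub_pos.2 h1
    have := tail_nonneg (S := S) h0.le h1.le R
    positivity
  set E := eball S (1 : Γ) M with hE
  have hv : Valid S E := valid_eball hS (Subset.refl _)
  have hp1 : 1 ≤ p⁻¹ := (one_le_inv₀ h0).2 h1.le
  intro l
  induction l with
  | nil =>
    intro u T _ _
    rw [avg_congr E p (g := fun _ => (0 : ℝ)) fun η _ => ind_false fun h => h.1 (by
      simpa using self_mem_cls η u), avg_const]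
    simp
  | cons a l ih =>
    intro u T hu hT
    rw [List.length_cons] at hT ⊢
    set v := nb S u a with hvdef
    set x := v * (l.map Subtype.val).prod with hx
    have hxu : u * ((a :: l).map Subtype.val).prod = x := by simp [hx, hvdef, nb, mul_assoc]
    have hvT : v ∈ ball S (T + 1) := mul_mem_ball_succ hu a.2
    have hne : u ≠ v := (hS.labelling.adj_nb u a).ne
    set e := s(u, v) with he
    have hpt : ∀ η, η ⊆ E → ind (Apart n η u x)
        ≤ (ind (Split n (2 * R) η u v) + (ind (R ≤ csize η u) + ind (R ≤ csize η v)))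
          + ind (Apart n (insert e η) v x) := by
      intro η _
      have n1 := ind_nonneg (Split n (2 * R) η u v)
      have n2 := ind_nonneg (R ≤ csize η u)
      have n3 := ind_nonneg (R ≤ csize η v)
      have n4 := ind_nonneg (Apart n (insert e η) v x)
      by_cases h : Apart n η u x
      swap
      · rw [ind_false h]; linarith
      rw [ind_true h]
      obtain ⟨hxu', hnu, hnx⟩ := h
      have hins : cls (insert e η) v = cls η v ∪ cls η u := by
        rw [he, Sym2.eq_swap]; exact cls_insert hne.symm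
      have hxbig : n ≤ csize (insert e η) x :=
        hnx.trans (card_le_card (cls_mono (subset_insert _ _) x))
      have hvbig : n ≤ csize (insert e η) v := by
        rw [csize, hins]; exact hnu.trans (card_le_card subset_union_right)
      by_cases hvu : v ∈ cls η u
      · have : Apart n (insert e η) v x := by
          refine ⟨?_, hvbig, hxbig⟩
          rw [hins, cls_eq_left hvu, union_self]; exact hxu'
        rw [ind_true this]; linarith
      · by_cases hnv : n ≤ csize η v
        · by_cases hR : R ≤ csize η u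
          · rw [ind_true hR]; linarith
          by_cases hR' : R ≤ csize η v
          · rw [ind_true hR']; linarith
          rw [ind_true (show Split n (2 * R) η u v from ⟨hvu, hnu, hnv, by omega⟩)]; linarith
        · have : Apart n (insert e η) v x := by
            refine ⟨?_, hvbig, hxbig⟩
            rw [hins, mem_union, not_or]
            exact ⟨fun hxv => hnv (by rw [csize, ← cls_eq_left hxv]; exact hnx), hxu'⟩
          rw [ind_true this]; linarith
    rw [hxu]
    refine (avg_mono E h0.le h1.le hpt).trans ?_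
    rw [avg_add, avg_add, avg_add]
    have b1 : avg E p (fun η => ind (Split n (2 * R) η u v))
        ≤ 80 * Real.sqrt (2 * S.card + 1) / (p * (1 - p)) / Real.sqrt n :=
      two_ghost hS h0 h1 hn (2 * R) hv a (eball_one hu (by omega))
    have b2 : avg E p (fun η => ind (R ≤ csize η u)) = tail S p R :=
      tail_eq hS hv (eball_one hu (by omega)) p
    have b3 : avg E p (fun η => ind (R ≤ csize η v)) = tail S p R :=
      tail_eq hS hv (eball_one hvT (by omega)) p
    have heE : e ∈ E := by
      have := mem_touch (nb := nb S) (mem_image.2 ⟨u, ball_mono (by omega) hu, one_mul u⟩ :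
        u ∈ (ball S M).image ((1 : Γ) * ·)) a
      exact this
    have b4 : avg E p (fun η => ind (Apart n (insert e η) v x))
        ≤ p⁻¹ * avg E p (fun η => ind (Apart n η v x)) := by
      rw [avg_edge heE]
      conv_rhs => rw [avg_edge heE]
      simp only [insert_idem]
      have hq : 0 ≤ (1 - p) * avg (E.erase e) p (fun η => ind (Apart n η v x)) :=
        mul_nonneg (sub_nonneg.2 h1.le) (avg_nonneg _ h0.le h1.le fun _ _ => ind_nonneg _)
      rw [mul_add, ← mul_assoc, inv_mul_cancel₀ h0.ne', one_mul]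
      have := mul_nonneg (inv_nonneg.2 h0.le) hq
      linarith
    have b5 := mul_le_mul_of_nonneg_left (ih v (T + 1) hvT (by omega)) (inv_nonneg.2 h0.le)
    rw [b2, b3]
    have hpow : 1 ≤ p⁻¹ ^ (l.length + 1) := one_le_pow₀ hp1
    have b6 : B ≤ p⁻¹ ^ (l.length + 1) * B := le_mul_of_one_le_left hB0 hpow
    push_cast
    rw [pow_succ'] at b6 ⊢
    nlinarith [hB]

/-- The main recursion. -/
theorem tail_recursion (hS : Gens S) (hne : S.Nonempty) {p : ℝ} (h0 : 0 < p) (h1 : p < 1)
    (hlim : Filter.Tendsto (fun m => tail S p m) Filter.atTop (nhds 0))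
    {n N k J r : ℕ} (hn : 1 ≤ n) (hk : k ≤ J) (hJ : 1 ≤ J)
    (hspeed : 1 / 2 ≤ ∑ y ∈ ball S r, step S (2 * k) 1 y) :
    tail S p n ^ 2 ≤ tail S p (N + 1)
      + r * p⁻¹ ^ r * (80 * Real.sqrt (2 * S.card + 1) / (p * (1 - p)) / Real.sqrt n)
      + 2 * ((N : ℝ) * step S (2 * J) 1 1) ^ ((k : ℝ) / J) := by
  set B₀ := 80 * Real.sqrt (2 * S.card + 1) / (p * (1 - p)) / Real.sqrt n with hB₀
  set U := ((N : ℝ) * step S (2 * J) 1 1) ^ ((k : ℝ) / J) with hU
  have hU0 : 0 ≤ U := Real.rpow_nonneg (mul_nonneg (Nat.cast_nonneg _)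
    (div_nonneg (walkCount_nonneg _ _ _ _) (by positivity))) _
  have main : ∀ R : ℕ, tail S p n ^ 2 ≤ tail S p (N + 1)
      + r * p⁻¹ ^ r * (B₀ + 2 * tail S p R) + 2 * U := by
    intro R
    set M := 4 * N + 4 + r + 2 * R + n with hM
    set E := eball S (1 : Γ) M with hE
    have hv : Valid S E := valid_eball hS (Subset.refl _)
    have hlow : ∀ y ∈ ball S r, tail S p n ^ 2 - r * p⁻¹ ^ r * (B₀ + 2 * tail S p R)
        - tail S p (N + 1) ≤ avg E p (fun η => ind (y ∈ cls η 1 ∧ csize η 1 ≤ N)) := by
      intro y hy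
      have h1' := tail_eq hS hv (eball_one (one_mem_ball (S := S) 0) (by omega) :
        eball S (1 : Γ) n ⊆ E) p
      have hy' := tail_eq hS hv (eball_one hy (by omega) : eball S y n ⊆ E) p
      have hN' := tail_eq hS hv (eball_one (one_mem_ball (S := S) 0) (by omega) :
        eball S (1 : Γ) (N + 1) ⊆ E) p
      have hh := harris E h0.le h1.le (monotone_big n 1) (monotone_big n y)
      rw [h1', hy', ← sq] at hh
      obtain ⟨l, hl, hly⟩ := exists_word hy
      have ha := apart_le hS h0 h1 hn R (M := M) l 1 0 (one_mem_ball 0) (by omega)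
      rw [one_mul, hly] at ha
      have hmono : (l.length : ℝ) * p⁻¹ ^ l.length ≤ r * p⁻¹ ^ r :=
        mul_le_mul (by exact_mod_cast hl) (pow_le_pow_right₀ ((one_le_inv₀ h0).2 h1.le) hl)
          (by positivity) (by positivity)
      have hBnn : 0 ≤ B₀ + 2 * tail S p R := by
        have : 0 < 1 - p := sub_pos.2 h1
        have := tail_nonneg (S := S) h0.le h1.le R
        positivity
      have ha' := ha.trans (mul_le_mul_of_nonneg_right hmono hBnn)
      have hpt : avg E p (fun η => ind (n ≤ csize η 1) * ind (n ≤ csize η y))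
          ≤ avg E p (fun η => (ind (Apart n η 1 y) + ind (N + 1 ≤ csize η 1))
            + ind (y ∈ cls η 1 ∧ csize η 1 ≤ N)) := by
        refine avg_mono E h0.le h1.le fun η _ => ?_
        rw [← ind_and]
        have n1 := ind_nonneg (Apart n η 1 y)
        have n2 := ind_nonneg (N + 1 ≤ csize η 1)
        have n3 := ind_nonneg (y ∈ cls η 1 ∧ csize η 1 ≤ N)
        by_cases h : n ≤ csize η 1 ∧ n ≤ csize η y
        swap
        · rw [ind_false h]; linarith
        rw [ind_true h]
        by_cases hy1 : y ∈ cls η 1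
        · by_cases hN : N + 1 ≤ csize η 1
          · rw [ind_true hN]; linarith
          · rw [ind_true (show y ∈ cls η 1 ∧ csize η 1 ≤ N from ⟨hy1, by omega⟩)]; linarith
        · rw [ind_true (show Apart n η 1 y from ⟨hy1, h.1, h.2⟩)]; linarith
      rw [avg_add, avg_add, hN'] at hpt
      linarith
    set π := ∑ y ∈ ball S r, step S (2 * k) 1 y with hπ
    set D := tail S p n ^ 2 - r * p⁻¹ ^ r * (B₀ + 2 * tail S p R) - tail S p (N + 1) with hD
    have hsnn : ∀ y, 0 ≤ step S (2 * k) (1 : Γ) y := fun y =>
      div_nonneg (walkCount_nonneg _ _ _ _) (by positivity)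
    have hmain : π * D ≤ U := by
      calc π * D = ∑ y ∈ ball S r, step S (2 * k) 1 y * D := sum_mul _ _ _
        _ ≤ ∑ y ∈ ball S r, step S (2 * k) 1 y *
              avg E p (fun η => ind (y ∈ cls η 1 ∧ csize η 1 ≤ N)) :=
            sum_le_sum fun y hy => mul_le_mul_of_nonneg_left (hlow y hy) (hsnn y)
        _ = avg E p (fun η => ∑ y ∈ ball S r,
              step S (2 * k) 1 y * ind (y ∈ cls η 1 ∧ csize η 1 ≤ N)) := by
            rw [avg_sum]
            exact sum_congr rfl fun y _ => (avg_mul E p _ _).symm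
        _ ≤ avg E p (fun η => ind (csize η 1 ≤ N) * ∑ y ∈ cls η 1, step S (2 * k) 1 y) := by
            refine avg_mono E h0.le h1.le fun η _ => ?_
            by_cases hN : csize η 1 ≤ N
            · rw [ind_true hN, one_mul]
              have : ∀ y, step S (2 * k) (1 : Γ) y * ind (y ∈ cls η 1 ∧ csize η 1 ≤ N)
                  = if y ∈ cls η 1 then step S (2 * k) 1 y else 0 := fun y => by
                by_cases hy : y ∈ cls η 1 <;> simp [ind, hy, hN]
              rw [sum_congr rfl fun y _ => this y, ← sum_filter]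
              exact sum_le_sum_of_subset_of_nonneg (fun y hy => (mem_filter.1 hy).2)
                fun y _ _ => hsnn y
            · rw [ind_false hN, zero_mul]
              exact le_of_eq (sum_eq_zero fun y _ => by rw [ind_false fun h => hN h.2, mul_zero])
        _ ≤ U := trunc_le hS hne h0.le h1.le hk hJ (by omega)
    rcases le_or_gt D 0 with hD0 | hD0
    · rw [hD] at hD0; linarith
    · have : 1 / 2 * D ≤ π * D := mul_le_mul_of_nonneg_right hspeed hD0.le
      rw [hD] at this hmain
      linarith
  have ht : Filter.Tendsto (fun R => tail S p (N + 1)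
      + r * p⁻¹ ^ r * (B₀ + 2 * tail S p R) + 2 * U) Filter.atTop
      (nhds (tail S p (N + 1) + r * p⁻¹ ^ r * (B₀ + 2 * 0) + 2 * U)) :=
    (((hlim.const_mul 2).const_add B₀).const_mul ((r : ℝ) * p⁻¹ ^ r)).const_add _ |>.add_const _
  have := ge_of_tendsto ht (Filter.Eventually.of_forall main)
  simpa using this

end Vale.Agent.P151
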