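import Vale.Agent.P151.Spread
import Vale.Agent.P151.Link

/-!
# The bootstrap: no infinite cluster at the threshold when returns are rare
-/

namespace Vale.Agent.P151

open Finset Vale.Agent.P165 Filter Real

variable {Γ : Type} [Group Γ] [DecidableEq Γ] {S : Finset Γ}

/-- The error terms are eventually negligible against the target decay. -/
theorem eventually_small {b η a : ℝ} (K : ℝ) (hb : 0 < b) (ha : 0 < a) (ha1 : a < 1)
    (haη : a < η) :
    ∀ᶠ L : ℝ in atTop, K * L * exp (-L / 4) + 2 * exp (-b * L ^ η) ≤ exp (-4 * L ^ a) := by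
  have hη : 0 < η := ha.trans haη
  have h1 : ∀ᶠ L : ℝ in atTop, 64 ≤ L ^ (1 - a) :=
    (tendsto_rpow_atTop (show 0 < 1 - a by linarith)).eventually (eventually_ge_atTop 64)
  have h2 : ∀ᶠ L : ℝ in atTop, 8 / b ≤ L ^ (η - a) :=
    (tendsto_rpow_atTop (show 0 < η - a by linarith)).eventually (eventually_ge_atTop _)
  have h3 : ∀ᶠ L : ℝ in atTop, |K| * (L * exp (-(1 / 8) * L)) ≤ 1 / 2 := by
    have h := (tendsto_rpow_mul_exp_neg_mul_atTop_nhds_zero 1 (1 / 8) (by norm_num)).const_mul |K|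
    rw [mul_zero] at h
    have h' := h.eventually (eventually_le_nhds (by norm_num : (0 : ℝ) < 1 / 2))
    filter_upwards [h', eventually_ge_atTop (0 : ℝ)] with L hL _
    simpa using hL
  have h4 : ∀ᶠ L : ℝ in atTop, exp (-(b / 2) * L ^ η) ≤ 1 / 4 := by
    have h : Tendsto (fun L : ℝ => exp (-(b / 2) * L ^ η)) atTop (nhds 0) := by
      refine tendsto_exp_atBot.comp ?_
      exact (tendsto_rpow_atTop hη).const_mul_atTop_of_neg (by linarith)
    exact h.eventually (eventually_le_nhds (by norm_num : (0 : ℝ) < 1 / 4))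
  filter_upwards [h1, h2, h3, h4, eventually_gt_atTop (0 : ℝ)] with L l1 l2 l3 l4 hL
  have e1 : L ^ (1 - a) * L ^ a = L := by rw [← rpow_add hL, sub_add_cancel, rpow_one]
  have e2 : L ^ (η - a) * L ^ a = L ^ η := by rw [← rpow_add hL, sub_add_cancel]
  have hLa : 0 < L ^ a := rpow_pos_of_pos hL a
  have g1 : 64 * L ^ a ≤ L := (mul_le_mul_of_nonneg_right l1 hLa.le).trans e1.le
  have g2 : 8 * L ^ a ≤ b * L ^ η := by
    have := mul_le_mul_of_nonneg_right l2 hLa.le
    rw [e2, div_mul_eq_mul_div, div_le_iff₀ hb] at this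
    linarith
  have x1 : exp (-L / 4) ≤ exp (-(1 / 8) * L) * exp (-4 * L ^ a) := by
    rw [← exp_add, exp_le_exp]; linarith
  have x2 : exp (-b * L ^ η) ≤ exp (-(b / 2) * L ^ η) * exp (-4 * L ^ a) := by
    rw [← exp_add, exp_le_exp]; linarith
  have y1 : K * L * exp (-L / 4) ≤ 1 / 2 * exp (-4 * L ^ a) := by
    calc K * L * exp (-L / 4) ≤ |K| * L * exp (-L / 4) :=
          mul_le_mul_of_nonneg_right (mul_le_mul_of_nonneg_right (le_abs_self K) hL.le) (exp_pos _).le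
      _ ≤ |K| * L * (exp (-(1 / 8) * L) * exp (-4 * L ^ a)) :=
          mul_le_mul_of_nonneg_left x1 (by positivity)
      _ ≤ _ := by
          rw [← mul_assoc, mul_assoc |K| L]
          exact mul_le_mul_of_nonneg_right l3 (exp_pos _).le
  have y2 : 2 * exp (-b * L ^ η) ≤ 1 / 2 * exp (-4 * L ^ a) := by
    have := x2.trans (mul_le_mul_of_nonneg_right l4 (exp_pos _).le)
    linarith
  linarith

/-- The parameters of one step of the recursion. -/
theorem choose_scales {c g θ η L₁ : ℝ} (M : ℕ) (hM : 1 ≤ M) (hc : 0 < c) (hg : 0 < g)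
    (hθ0 : 0 ≤ θ) (hθg : θ < 1 / g) (hη : η = 2 - θ) (hη' : η = 1 + θ - 1 / g) (hL₁ : 0 < L₁) :
    ∃ b : ℝ, 0 < b ∧ ∀ᶠ L : ℝ in atTop, ∃ j m J : ℕ, 1 ≤ m ∧ m ≤ J ∧
      (j : ℝ) * L₁ ≤ L / 4 ∧ 2 * (M * L) ≤ c * (J : ℝ) ^ g ∧
      b * L ^ η ≤ (j : ℝ) ^ 2 / (2 * m) ∧ b * L ^ η ≤ M * L * ((m : ℝ) / J) := by
  have hMR : (1 : ℝ) ≤ M := by exact_mod_cast hM
  set w := (2 * (M : ℝ) / c) ^ (1 / g) with hw
  have hw0 : 0 < w := rpow_pos_of_pos (by positivity) _
  refine ⟨min (1 / (4 * (8 * L₁) ^ 2)) (M / (2 * w)), lt_min (by positivity) (by positivity), ?_⟩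
  have a1 : ∀ᶠ L : ℝ in atTop, 1 ≤ w * L ^ (1 / g) :=
    ((tendsto_rpow_atTop (by positivity)).const_mul_atTop hw0).eventually (eventually_ge_atTop 1)
  have a2 : ∀ᶠ L : ℝ in atTop, 2 ≤ w * L ^ (1 / g - θ) :=
    ((tendsto_rpow_atTop (by linarith)).const_mul_atTop hw0).eventually (eventually_ge_atTop 2)
  filter_upwards [a1, a2, eventually_ge_atTop (max 1 (8 * L₁))] with L l1 l2 l3
  have hL1 : 1 ≤ L := le_of_max_le_left l3
  have hL : 0 < L := by linarith
  set x := L / (4 * L₁) with hx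
  have hx2 : 2 ≤ x := by rw [hx, le_div_iff₀ (by positivity)]; linarith [le_of_max_le_right l3]
  set j := ⌊x⌋₊ with hj
  have hj1 : (j : ℝ) ≤ x := Nat.floor_le (by linarith)
  have hj2 : x / 2 ≤ j := by linarith [Nat.lt_floor_add_one x]
  set y := L ^ θ with hy
  have hy1 : 1 ≤ y := one_le_rpow hL1 hθ0
  set m := ⌈y⌉₊ with hm
  set z := w * L ^ (1 / g) with hz
  set J := ⌈z⌉₊ with hJ
  have hm1 : y ≤ m := Nat.le_ceil y
  have hm2 : (m : ℝ) ≤ 2 * y := by linarith [Nat.ceil_lt_add_one (show 0 ≤ y by linarith)]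
  have hJ1 : z ≤ J := Nat.le_ceil z
  have hJ2 : (J : ℝ) ≤ 2 * z := by linarith [Nat.ceil_lt_add_one (show 0 ≤ z by linarith)]
  have hmJ : (m : ℝ) ≤ J := by
    refine hm2.trans (le_trans ?_ hJ1)
    have := mul_le_mul_of_nonneg_right l2 (rpow_nonneg hL.le θ)
    rwa [mul_assoc, ← rpow_add hL, sub_add_cancel] at this
  refine ⟨j, m, J, ?_, by exact_mod_cast hmJ, ?_, ?_, ?_, ?_⟩
  · exact Nat.one_le_ceil_iff.2 (by linarith)
  · refine (mul_le_mul_of_nonneg_right hj1 hL₁.le).trans (le_of_eq ?_)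
    rw [hx]; field_simp
  · have h := rpow_le_rpow (by positivity) hJ1 hg.le
    rw [hz, hw, ← mul_rpow (by positivity) hL.le, ← rpow_mul (by positivity),
      one_div_mul_cancel hg.ne', rpow_one] at h
    have := mul_le_mul_of_nonneg_left h hc.le
    refine le_trans (le_of_eq ?_) this
    field_simp
  · refine (mul_le_mul_of_nonneg_right (min_le_left _ _) (rpow_nonneg hL.le _)).trans ?_
    have hmpos : (0 : ℝ) < m := by linarith
    rw [hη, rpow_sub hL, rpow_two]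
    calc 1 / (4 * (8 * L₁) ^ 2) * (L ^ 2 / L ^ θ) = (x / 2) ^ 2 / (2 * (2 * y)) := by
          rw [hx, hy]; field_simp; ring
      _ ≤ (j : ℝ) ^ 2 / (2 * m) :=
          div_le_div₀ (sq_nonneg _) (pow_le_pow_left₀ (by linarith) hj2 2) (by positivity)
            (by linarith)
  · refine (mul_le_mul_of_nonneg_right (min_le_right _ _) (rpow_nonneg hL.le _)).trans ?_
    have hJpos : (0 : ℝ) < J := by linarith
    rw [hη', rpow_sub hL, rpow_add hL, rpow_one]
    have hq : y / (2 * z) ≤ (m : ℝ) / J :=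
      div_le_div₀ (Nat.cast_nonneg m) hm1 hJpos hJ2
    refine le_trans (le_of_eq ?_) (mul_le_mul_of_nonneg_left hq (by positivity))
    rw [hz, hy]
    field_simp

/-- The gluing costs are negligible against the two-ghost gain. -/
theorem glue_le {q p₀ P L L₁ D : ℝ} {n j : ℕ} (hn : 1 ≤ n) (hp₀0 : 0 < p₀) (hq : p₀ ≤ q)
    (hq1 : q < 1) (hqP : q < P) (hP1 : 0 < 1 - P) (hL : L = log n) (hL₁0 : 0 < L₁)
    (hL₁ : L₁ = 2 * log ((S.card : ℝ) + 1) + 2 * -log p₀)
    (hD : D = 80 * sqrt (2 * S.card + 1) / (p₀ * (1 - P))) (hj : (j : ℝ) * L₁ ≤ L / 4) :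
    ((ball S j).card : ℝ) ^ 2 * ((2 * j : ℕ) * q⁻¹ ^ (2 * j) *
      (80 * sqrt (2 * S.card + 1) / (q * (1 - q)) / sqrt n))
      ≤ D / (2 * L₁) * L * exp (-L / 4) := by
  subst hD
  have hnpos : (0 : ℝ) < n := by exact_mod_cast hn
  have hq0 : 0 < q := lt_of_lt_of_le hp₀0 hq
  have h1 : ((2 * j : ℕ) : ℝ) ≤ L / (2 * L₁) := by
    push_cast; rw [le_div_iff₀ (by positivity)]; linarith
  have hball : ((ball S j).card : ℝ) ≤ exp (j * log ((S.card : ℝ) + 1)) := by
    rw [exp_nat_mul, exp_log (by positivity)]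
    exact_mod_cast card_ball_le j
  have h2 : ((ball S j).card : ℝ) ^ 2 * q⁻¹ ^ (2 * j) ≤ exp (L / 4) := by
    have hb2 := pow_le_pow_left₀ (Nat.cast_nonneg _) hball 2
    have hq' : q⁻¹ ^ (2 * j) ≤ exp ((2 * j : ℕ) * -log p₀) := by
      rw [exp_nat_mul, exp_neg, exp_log hp₀0]
      exact pow_le_pow_left₀ (by positivity) (inv_anti₀ hp₀0 hq) _
    refine (mul_le_mul hb2 hq' (by positivity) (by positivity)).trans ?_
    rw [← exp_nat_mul, ← exp_add, exp_le_exp]
    refine le_trans (le_of_eq ?_) hj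
    rw [hL₁]; push_cast; ring
  have h3 : 80 * sqrt (2 * S.card + 1) / (q * (1 - q)) / sqrt n ≤ 80 * sqrt (2 * S.card + 1) / (p₀ * (1 - P)) * exp (-L / 2) := by
    have e : (sqrt n)⁻¹ = exp (-L / 2) := by
      rw [hL, sqrt_eq_rpow, rpow_def_of_pos hnpos, ← exp_neg]
      congr 1; ring
    rw [div_eq_mul_inv _ (sqrt _), e]
    refine mul_le_mul_of_nonneg_right ?_ (exp_pos _).le
    refine div_le_div_of_nonneg_left (by positivity) (by positivity) ?_
    exact mul_le_mul hq (by linarith) hP1.le hq0.le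
  have h4 : 0 ≤ 80 * sqrt (2 * S.card + 1) / (q * (1 - q)) / sqrt n := by
    have : 0 < 1 - q := sub_pos.2 hq1
    positivity
  calc _ = (2 * j : ℕ) * (((ball S j).card : ℝ) ^ 2 * q⁻¹ ^ (2 * j)) *
          (80 * sqrt (2 * S.card + 1) / (q * (1 - q)) / sqrt n) := by ring
    _ ≤ L / (2 * L₁) * exp (L / 4) * (80 * sqrt (2 * S.card + 1) / (p₀ * (1 - P)) * exp (-L / 2)) := by
        have hL0 : 0 ≤ L := hL ▸ log_natCast_nonneg n
        exact mul_le_mul (mul_le_mul h1 h2 (by positivity) (by positivity)) h3 h4 (by positivity)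
    _ = 80 * sqrt (2 * S.card + 1) / (p₀ * (1 - P)) / (2 * L₁) * L * (exp (L / 4) * exp (-L / 2)) := by ring
    _ = _ := by rw [← exp_add]; congr 2; ring

/-- One step of the bootstrap. -/
theorem step_le (hS : Gens S) (hne : S.Nonempty) {c γ g q p₀ P L₁ D a b η L : ℝ} {M n j m J : ℕ}
    (hc : 0 < c) (hgγ : g ≤ γ) (hret : ∀ k : ℕ, 1 ≤ k → step S (2 * k) 1 1 ≤ exp (-c * (k : ℝ) ^ γ))
    (hp₀0 : 0 < p₀) (hq : p₀ ≤ q) (hqP : q < P) (hP1 : 0 < 1 - P)
    (hlim : Tendsto (fun i => tail S q i) atTop (nhds 0)) (hn1 : 1 ≤ n) (hL : L = log n)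
    (hL₁0 : 0 < L₁) (hL₁ : L₁ = 2 * log ((S.card : ℝ) + 1) + 2 * -log p₀)
    (hD : D = 80 * sqrt (2 * S.card + 1) / (p₀ * (1 - P)))
    (hm1 : 1 ≤ m) (hmJ : m ≤ J) (hj : (j : ℝ) * L₁ ≤ L / 4) (hJ : 2 * (M * L) ≤ c * (J : ℝ) ^ g)
    (hb1 : b * L ^ η ≤ (j : ℝ) ^ 2 / (2 * m)) (hb2 : b * L ^ η ≤ M * L * ((m : ℝ) / J))
    (hsm : 4 * (D / (2 * L₁)) * L * exp (-L / 4) + 2 * exp (-(b / 2) * L ^ η) ≤ exp (-4 * L ^ a))
    (ht1 : 40 * exp (-(b / 2) * L ^ η) ≤ 2) (ht2 : exp (-b * L ^ η) ≤ 1 / 4) :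
    tail S q n ^ 2 ≤ 8 * tail S q (n ^ M) + exp (-4 * L ^ a) := by
  have hq0 : 0 < q := lt_of_lt_of_le hp₀0 hq
  have hq1 : q < 1 := by linarith
  have hJ1 : 1 ≤ J := hm1.trans hmJ
  have hrec := spread_recursion hS hne hq0 hq1 hlim (n := n) (N := n ^ M) (j := j) hn1 hmJ hJ1
  have hnpos : (0 : ℝ) < n := by exact_mod_cast hn1
  set Q := qc j m 0 with hQ
  -- the high degrees
  have hQ1 : Q ≤ 2 * exp (-b * L ^ η) := by
    refine (qc_carne hm1).trans (mul_le_mul_of_nonneg_left (exp_le_exp.2 ?_) (by norm_num))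
    rw [neg_div, neg_mul]
    linarith
  have hQ0 : 0 ≤ Q := (qc_bounds j m 0).1
  -- the walk term
  have hU : ((((n ^ M : ℕ) : ℝ)) * step S (2 * J) 1 1) ^ ((m : ℝ) / J) ≤ exp (-b * L ^ η) := by
    have hst : step S (2 * J) (1 : Γ) 1 ≤ exp (-(2 * (M * L))) := by
      refine (hret J hJ1).trans (exp_le_exp.2 ?_)
      have : (J : ℝ) ^ g ≤ (J : ℝ) ^ γ :=
        rpow_le_rpow_of_exponent_le (by exact_mod_cast hJ1) hgγ
      have := mul_le_mul_of_nonneg_left this hc.le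
      linarith
    have hNexp : ((n ^ M : ℕ) : ℝ) = exp (M * L) := by
      push_cast
      rw [hL, exp_nat_mul, exp_log hnpos]
    have h1 : ((n ^ M : ℕ) : ℝ) * step S (2 * J) 1 1 ≤ exp (-(M * L)) := by
      refine (mul_le_mul_of_nonneg_left hst (Nat.cast_nonneg _)).trans (le_of_eq ?_)
      rw [hNexp, ← exp_add]
      congr 1; ring
    refine (rpow_le_rpow (mul_nonneg (Nat.cast_nonneg _)
      (div_nonneg (walkCount_nonneg _ _ _ _) (by positivity))) h1 (by positivity)).trans ?_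
    rw [← exp_mul, exp_le_exp]
    linarith
  have hG := glue_le (S := S) (j := j) hn1 hp₀0 hq hq1 hqP hP1 hL hL₁0 hL₁ hD hj
  have hanti := tail_antitone hS hq0.le hq1.le (Nat.le_succ (n ^ M))
  have hE0 := exp_pos (-b * L ^ η)
  have hhalf : 1 / 4 * tail S q n ^ 2 ≤ ((1 - Q) * tail S q n) ^ 2 := by
    rw [mul_pow]
    exact mul_le_mul_of_nonneg_right (by nlinarith) (sq_nonneg _)
  have hQ2 : Q ^ 2 ≤ exp (-b * L ^ η) := by nlinarith
  have hbhalf : 16 * exp (-b * L ^ η) ≤ 2 * exp (-(b / 2) * L ^ η) := by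
    rw [show -b * L ^ η = -(b / 2) * L ^ η + -(b / 2) * L ^ η by ring, exp_add]
    nlinarith [exp_pos (-(b / 2) * L ^ η)]
  linarith

/-- The return criterion: an exponent above one third suffices. -/
theorem no_percolation_of_return (hS : Gens S) [Infinite Γ] (hconn : (cayley S).Connected)
    (hpc : pc (cayley S) < 1) {c γ : ℝ} (hc : 0 < c) (hγ : 1 / 3 < γ)
    (hret : ∀ k : ℕ, 1 ≤ k → step S (2 * k) 1 1 ≤ exp (-c * (k : ℝ) ^ γ))
    (p : unitInterval) (hp : (p : ℝ) = pc (cayley S)) :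
    perc (cayley S) p (hasInfinite (cayley S)) = 0 := by
  have hne : S.Nonempty := by
    by_contra hempty
    rw [not_nonempty_iff_eq_empty] at hempty
    obtain ⟨y, hy⟩ := Infinite.exists_notMem_finset ({1} : Finset Γ)
    obtain ⟨w⟩ := hconn.preconnected 1 y
    cases w with
    | nil => exact hy (mem_singleton_self 1)
    | cons h _ => simpa [hempty] using hS.adj.1 h
  obtain ⟨g, hg3, hg⟩ := exists_between (lt_min hγ (show (1 : ℝ) / 3 < 1 / 2 by norm_num))
  have hg0 : 0 < g := by linarith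
  have hg2 : g < 1 / 2 := hg.trans_le (min_le_right _ _)
  have hgγ : g ≤ γ := (hg.trans_le (min_le_left _ _)).le
  set θ := (1 + 1 / g) / 2 with hθ
  have hi3 : 1 / g < 3 := by rw [div_lt_iff₀ hg0]; linarith
  have hi2 : 2 < 1 / g := by rw [lt_div_iff₀ hg0]; linarith
  set η := 2 - θ with hη
  have hη' : η = 1 + θ - 1 / g := by rw [hη, hθ]; ring
  have hη0 : 0 < η := by rw [hη, hθ]; linarith
  set a := min (η / 2) (1 / 2) with ha
  have ha0 : 0 < a := lt_min (by linarith) (by norm_num)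
  have ha1 : a < 1 := lt_of_le_of_lt (min_le_right _ _) (by norm_num)
  have haη : a < η := lt_of_le_of_lt (min_le_left _ _) (by linarith)
  obtain ⟨M, hM4⟩ : ∃ M : ℕ, (4 : ℝ) ≤ (M : ℝ) ^ a :=
    ((tendsto_rpow_atTop ha0).comp tendsto_natCast_atTop_atTop).eventually
      (eventually_ge_atTop 4) |>.exists
  have hM : 1 ≤ M := by
    rcases Nat.eq_zero_or_pos M with rfl | h
    · rw [Nat.cast_zero, zero_rpow ha0.ne'] at hM4; linarith
    · exact h
  set P := pc (cayley S) with hP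
  have hP0 : 0 < P := pc_pos hS hconn
  set p₀ := P / 2 with hp₀
  have hp₀0 : 0 < p₀ := by positivity
  set L₁ := 2 * log (S.card + 1) + 2 * -log p₀ with hL₁
  have hlog1 : 0 ≤ log ((S.card : ℝ) + 1) := log_nonneg (by linarith [Nat.cast_nonneg (α := ℝ) S.card])
  have hlog2 : 0 < -log p₀ := neg_pos.2 (log_neg hp₀0 (by linarith))
  have hL₁0 : 0 < L₁ := by linarith
  obtain ⟨b, hb, hscales⟩ :=
    choose_scales M hM hc hg0 (θ := θ) (by linarith) (by linarith) hη hη' hL₁0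
  set D := 80 * sqrt (2 * S.card + 1) / (p₀ * (1 - P)) with hD
  have hP1 : 0 < 1 - P := sub_pos.2 hpc
  have hsmall := eventually_small (η := η) (4 * (D / (2 * L₁))) (half_pos hb) ha0 ha1 haη
  have htiny : ∀ᶠ L : ℝ in atTop, 40 * exp (-(b / 2) * L ^ η) ≤ 2 ∧
      exp (-b * L ^ η) ≤ 1 / 4 := by
    have h : ∀ e : ℝ, 0 < e → Tendsto (fun L : ℝ => exp (-e * L ^ η)) atTop (nhds 0) := fun e he =>
      tendsto_exp_atBot.comp ((tendsto_rpow_atTop hη0).const_mul_atTop_of_neg (by linarith))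
    filter_upwards [(h _ (half_pos hb)).eventually (eventually_le_nhds (show (0 : ℝ) < 1 / 20 by norm_num)),
      (h b hb).eventually (eventually_le_nhds (show (0 : ℝ) < 1 / 4 by norm_num))] with L u1 u2
    exact ⟨by linarith, u2⟩
  have hlog : Tendsto (fun n : ℕ => log (n : ℝ)) atTop atTop :=
    tendsto_log_atTop.comp tendsto_natCast_atTop_atTop
  obtain ⟨n₀, hn₀⟩ := eventually_atTop.1 ((hlog.eventually hscales).and
    ((hlog.eventually hsmall).and ((hlog.eventually htiny).and (eventually_ge_atTop 1))))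
  let f : ℕ → ℝ := fun n => exp (-(log (n : ℝ)) ^ a)
  have hf0 : ∀ n, 0 < f n := fun n => exp_pos _
  have hlog0 : ∀ n : ℕ, 0 ≤ log (n : ℝ) := fun n => log_natCast_nonneg n
  -- one step
  have hstep : ∀ q, p₀ ≤ q → q < P → ∀ n, n₀ ≤ n →
      tail S q n ^ 2 ≤ 8 * tail S q (n ^ M) + f n ^ 4 := by
    intro q hq hqP n hn
    obtain ⟨⟨j, m, J, hm1, hmJ, hj, hJ, hb1, hb2⟩, hsm, ⟨ht1, ht2⟩, hn1⟩ := hn₀ n hn
    obtain ⟨C, δ, hδ, hdec⟩ := decay_below hS hconn (lt_of_lt_of_le hp₀0 hq) hqP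
    have hlim := tendsto_of_decay hδ (fun i => tail_nonneg (S := S) (lt_of_lt_of_le hp₀0 hq).le
      (hqP.trans hpc).le i) hdec
    have hf4 : f n ^ 4 = exp (-4 * log (n : ℝ) ^ a) := by
      simp only [f]
      rw [← exp_nat_mul]
      congr 1
      push_cast
      ring
    rw [hf4]
    exact step_le hS hne hc hgγ hret hp₀0 hq hqP hP1 hlim hn1 rfl hL₁0 hL₁ hD hm1 hmJ hj hJ
      hb1 hb2 hsm ht1 ht2
  have hfM : ∀ n : ℕ, f (n ^ M) ≤ f n ^ 4 := by
    intro n
    simp only [f]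
    rw [← exp_nat_mul, exp_le_exp, Nat.cast_pow, log_pow, mul_rpow (Nat.cast_nonneg _) (hlog0 n)]
    have := mul_le_mul_of_nonneg_right hM4 (rpow_nonneg (hlog0 n) a)
    push_cast
    linarith
  have hfanti : ∀ m n : ℕ, 1 ≤ m → m ≤ n → f n ≤ f m := by
    intro m n hm hmn
    simp only [f]
    rw [exp_le_exp, neg_le_neg_iff]
    exact rpow_le_rpow (hlog0 m) (log_le_log (by exact_mod_cast hm) (by exact_mod_cast hmn)) ha0.le
  set A₀ := max (f (n₀ + 1))⁻¹ 9 with hA₀
  have hunif : ∀ q, p₀ ≤ q → q < P → ∀ n : ℕ, 1 ≤ n → tail S q n ≤ A₀ * f n := by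
    intro q hq hqP
    have hq0 : 0 < q := lt_of_lt_of_le hp₀0 hq
    have hq1 : q ≤ 1 := (hqP.trans hpc).le
    obtain ⟨C, δ, hδ, hdec⟩ := decay_below hS hconn hq0 hqP
    let u : ℕ → ℝ := fun i => tail S q (i + 1) / f (i + 1)
    have hu : BddAbove (Set.range u) := by
      have hev : ∀ᶠ L : ℝ in atTop, -δ * L + L ^ a ≤ 0 := by
        filter_upwards [(tendsto_rpow_atTop (show 0 < 1 - a by linarith)).eventually
          (eventually_ge_atTop δ⁻¹), eventually_gt_atTop (0 : ℝ)] with L h1 h2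
        have h3 := mul_le_mul_of_nonneg_right h1 (rpow_nonneg h2.le a)
        rw [← rpow_add h2, sub_add_cancel, rpow_one, inv_mul_le_iff₀ hδ] at h3
        linarith
      obtain ⟨i₀, hi₀⟩ := eventually_atTop.1 (hlog.eventually hev)
      obtain ⟨B, hB⟩ := ((range (i₀ + 1)).image u).bddAbove
      refine ⟨max B |C|, ?_⟩
      rintro _ ⟨i, rfl⟩
      by_cases hi : i < i₀ + 1
      · exact le_max_of_le_left (hB (mem_image_of_mem u (mem_range.2 hi)))
      refine le_max_of_le_right ?_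
      have hpos : (0 : ℝ) < ((i + 1 : ℕ) : ℝ) := by positivity
      show tail S q (i + 1) / f (i + 1) ≤ |C|
      rw [div_le_iff₀ (hf0 _)]
      refine (hdec (i + 1) (by omega)).trans ?_
      refine mul_le_mul (le_abs_self C) ?_ (rpow_nonneg hpos.le _) (abs_nonneg C)
      rw [rpow_def_of_pos hpos, exp_le_exp]
      have := hi₀ (i + 1) (by omega)
      linarith
    set Aq := ⨆ i, u i with hAq
    have hle : ∀ n : ℕ, 1 ≤ n → tail S q n ≤ Aq * f n := by
      intro n hn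
      obtain ⟨i, rfl⟩ := Nat.exists_eq_add_of_le' hn
      rw [← div_le_iff₀ (hf0 _)]
      exact le_ciSup hu i
    have hAq0 : 0 ≤ Aq :=
      (div_nonneg (tail_nonneg hq0.le hq1 _) (hf0 _).le).trans (le_ciSup hu 0)
    have hAqle : Aq ≤ max (f (n₀ + 1))⁻¹ (sqrt (8 * Aq + 1)) := by
      refine ciSup_le fun i => ?_
      rcases le_or_gt (i + 1) n₀ with hi | hi
      · refine le_max_of_le_left ?_
        show tail S q (i + 1) / f (i + 1) ≤ _
        refine (div_le_div_of_nonneg_right (tail_le_one hq0.le hq1 _) (hf0 _).le).trans ?_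
        rw [one_div]
        exact inv_anti₀ (hf0 _) (hfanti _ _ (by omega) (by omega))
      · refine le_max_of_le_right (Real.le_sqrt_of_sq_le ?_)
        show (tail S q (i + 1) / f (i + 1)) ^ 2 ≤ _
        rw [div_pow, div_le_iff₀ (pow_pos (hf0 _) 2)]
        have h1 := hstep q hq hqP (i + 1) (by omega)
        have h2 := hle ((i + 1) ^ M) (Nat.one_le_pow _ _ (by omega))
        have h3 := mul_le_mul_of_nonneg_left (hfM (i + 1)) hAq0
        have h4 : f (i + 1) ^ 4 ≤ f (i + 1) ^ 2 := by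
          refine pow_le_pow_of_le_one (hf0 _).le ?_ (by norm_num)
          exact exp_le_one_iff.2 (neg_nonpos.2 (rpow_nonneg (hlog0 _) a))
        have h5 := mul_le_mul_of_nonneg_left h4 (by linarith : (0 : ℝ) ≤ 8 * Aq + 1)
        linarith
    have hfin : Aq ≤ A₀ := by
      rcases le_max_iff.1 hAqle with h | h
      · exact h.trans (le_max_left _ _)
      · refine le_trans ?_ (le_max_right _ _)
        have h2 := pow_le_pow_left₀ hAq0 h 2
        rw [sq_sqrt (by linarith)] at h2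
        nlinarith
    exact fun n hn => (hle n hn).trans (mul_le_mul_of_nonneg_right hfin (hf0 n).le)
  -- left continuity
  have hat : ∀ n : ℕ, 1 ≤ n → tail S P n ≤ A₀ * f n := by
    intro n hn
    have hcont : ContinuousWithinAt (fun q => tail S q n) (Set.Ico p₀ P) P :=
      (continuous_avg _ _).continuousAt.continuousWithinAt
    have hmem : (nhdsWithin P (Set.Ico p₀ P)).NeBot :=
      mem_closure_iff_nhdsWithin_neBot.1 (by
        rw [closure_Ico (by linarith : p₀ ≠ P)]; exact ⟨by linarith, le_rfl⟩)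
    exact le_of_tendsto hcont (eventually_nhdsWithin_of_forall fun q hq => hunif q hq.1 hq.2 n hn)
  refine no_infinite hS hconn p ?_
  rw [hp]
  have hfl : Tendsto (fun n : ℕ => A₀ * f n) atTop (nhds 0) := by
    have := (tendsto_exp_atBot.comp
      (tendsto_neg_atTop_atBot.comp ((tendsto_rpow_atTop ha0).comp hlog))).const_mul A₀
    simpa [f, Function.comp_def] using this
  exact squeeze_zero' (Eventually.of_forall fun n => tail_nonneg hP0.le hpc.le n)
    (eventually_atTop.2 ⟨1, hat⟩) hfl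

end Vale.Agent.P151
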