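import Vale.Agent.P151.Carne

/-!
# The walk operator truncated to low degree
-/

namespace Vale.Agent.P151

open Finset Vale.Agent.P165

variable {Γ : Type} [Group Γ] [DecidableEq Γ] {S : Finset Γ}

variable (S) in
/-- Chebyshev iterates of the walk operator on a function. -/
noncomputable def chebv (f : Γ → ℝ) : ℕ → (Γ → ℝ) × (Γ → ℝ)
  | 0 => (f, fun _ => 0)
  | j + 1 => (fun z => op S (chebv f j).1 z - ((chebv f j).2 z - op S (op S (chebv f j).2) z),
      fun z => op S (chebv f j).2 z + (chebv f j).1 z)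

variable (S) in
/-- Chebyshev iterates indexed by integers. -/
noncomputable def tz (f : Γ → ℝ) (i : ℤ) : Γ → ℝ := (chebv S f i.natAbs).1

theorem chebv_two (f : Γ → ℝ) (j : ℕ) (z : Γ) :
    (chebv S f (j + 2)).1 z = 2 * op S (chebv S f (j + 1)).1 z - (chebv S f j).1 z := by
  simp only [chebv, op_sub, op_add]
  ring

theorem op_zero : op S (fun _ : Γ => (0 : ℝ)) = fun _ => 0 := by
  funext z; simp [op]

theorem chebv_one (f : Γ → ℝ) (z : Γ) : (chebv S f 1).1 z = op S f z := by
  simp [chebv, op_zero]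

theorem op_tz (f : Γ → ℝ) (i : ℤ) (z : Γ) :
    op S (tz S f i) z = (tz S f (i + 1) z + tz S f (i - 1) z) / 2 := by
  rcases eq_or_ne i 0 with rfl | hi
  · have e1 : ((0 : ℤ) + 1).natAbs = 1 := rfl
    have e2 : ((0 : ℤ) - 1).natAbs = 1 := rfl
    simp only [tz, e1, e2, Int.natAbs_zero, chebv_one]
    simp [chebv]
  · obtain ⟨m, hm⟩ : ∃ m, i.natAbs = m + 1 := ⟨i.natAbs - 1, by omega⟩
    have h : ((i + 1).natAbs = m + 2 ∧ (i - 1).natAbs = m) ∨
        ((i + 1).natAbs = m ∧ (i - 1).natAbs = m + 2) := by omega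
    rcases h with ⟨a, b⟩ | ⟨a, b⟩ <;> simp only [tz, a, b, hm] <;> rw [chebv_two] <;> ring

theorem chebv_supp (hS : Gens S) {f : Γ → ℝ} {R : ℕ} (hf : Supp S f R) :
    ∀ j, Supp S (chebv S f j).1 (R + j) ∧ Supp S (chebv S f (j + 1)).1 (R + (j + 1))
      ∧ Supp S (chebv S f j).2 (R + j)
  | 0 => ⟨hf, fun z hz => (chebv_one f z).trans (hf.op hS z hz), fun z _ => rfl⟩
  | j + 1 => by
      obtain ⟨h1, h2, h3⟩ := chebv_supp hS hf j
      refine ⟨h2, fun z hz => ?_, fun z hz => ?_⟩
      · rw [chebv_two, h2.op hS z hz, h1.mono (by omega) z hz]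
        ring
      · simp only [chebv]
        rw [h3.op hS z hz, h1.mono (by omega) z hz]
        simp

/-- The Chebyshev iterates are contractions. -/
theorem chebv_norm (hS : Gens S) (hne : S.Nonempty) {f : Γ → ℝ} {R₀ R : ℕ} (hf : Supp S f R₀)
    (j : ℕ) (hj : R₀ + j + 2 ≤ R) :
    dot S R (chebv S f j).1 (chebv S f j).1 ≤ dot S R f f := by
  have henergy : ∀ j, R₀ + j + 2 ≤ R →
      dot S R (chebv S f j).1 (chebv S f j).1 + dot S R (chebv S f j).2 (chebv S f j).2
        - dot S R (op S (chebv S f j).2) (op S (chebv S f j).2) = dot S R f f := by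
    intro j
    induction j with
    | zero => intro _; simp [dot, chebv, op_zero]
    | succ j ih =>
      intro hj
      have ih := ih (by omega)
      obtain ⟨sT, -, sU⟩ := chebv_supp hS hf j
      set T := (chebv S f j).1 with hT
      set U := (chebv S f j).2 with hU
      have e2 : op S (chebv S f (j + 1)).2 = fun z => op S (op S U) z + op S T z := op_add _ _
      have i1 := dot_op hS (sT.mono (by omega : R₀ + j ≤ R)) (sU.mono (by omega : R₀ + j ≤ R))
      have i2 := dot_op hS (u := op S U) ((sU.op hS).mono (by omega : R₀ + j + 1 ≤ R))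
        (sU.mono (by omega : R₀ + j ≤ R))
      rw [e2]
      simp only [chebv, ← hT, ← hU, dot] at ih i1 i2 ⊢
      simp only [mul_add, add_mul, mul_sub, sub_mul, sum_add_distrib, sum_sub_distrib] at ih i1 i2 ⊢
      have c1 : ∀ f g : Γ → ℝ, ∑ z ∈ ball S R, f z * g z = ∑ z ∈ ball S R, g z * f z :=
        fun f g => sum_congr rfl fun z _ => mul_comm _ _
      linarith [c1 (op S T) U, c1 (op S (op S U)) U, c1 (op S U) T, c1 (op S (op S U)) (op S T)]
  have h := henergy j hj
  have hop := dot_op_le hS hne ((chebv_supp hS hf j).2.2.mono (by omega : R₀ + j ≤ R))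
  linarith

/-- The weight of the Chebyshev degrees above `j` in the `m`-th power. -/
noncomputable def qc (j : ℕ) : ℕ → ℤ → ℝ
  | 0, i => if j < i.natAbs then 1 else 0
  | m + 1, i => (qc j m (i + 1) + qc j m (i - 1)) / 2

variable (S) in
/-- The part of low degree of the `m`-th power applied to `tz f i`. -/
noncomputable def trn (j : ℕ) (f : Γ → ℝ) : ℕ → ℤ → Γ → ℝ
  | 0, i => if j < i.natAbs then fun _ => 0 else tz S f i
  | m + 1, i => fun z => (trn j f m (i + 1) z + trn j f m (i - 1) z) / 2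

variable (S) in
/-- The part of high degree. -/
noncomputable def res (j : ℕ) (f : Γ → ℝ) : ℕ → ℤ → Γ → ℝ
  | 0, i => if j < i.natAbs then tz S f i else fun _ => 0
  | m + 1, i => fun z => (res j f m (i + 1) z + res j f m (i - 1) z) / 2

theorem qc_bounds (j : ℕ) : ∀ (m : ℕ) (i : ℤ), 0 ≤ qc j m i ∧ qc j m i ≤ 1
  | 0, i => by rw [qc]; split_ifs <;> norm_num
  | m + 1, i => by
      obtain ⟨a, b⟩ := qc_bounds j m (i + 1)
      obtain ⟨c, d⟩ := qc_bounds j m (i - 1)
      rw [qc]; constructor <;> linarith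

theorem qc_le (j : ℕ) {l : ℝ} (hl : 0 ≤ l) : ∀ (m : ℕ) (i : ℤ),
    qc j m i ≤ 2 * Real.cosh l ^ m * Real.cosh (l * i) * Real.exp (-l * j)
  | 0, i => by
      rw [qc, pow_zero, mul_one]
      have hpos := Real.cosh_pos (x := l * (i : ℝ))
      split_ifs with hi
      swap
      · positivity
      have h1 : Real.exp (l * (i.natAbs : ℝ)) ≤ 2 * Real.cosh (l * i) := by
        rw [← Real.cosh_abs (l * i), abs_mul, abs_of_nonneg hl, Nat.cast_natAbs, Int.cast_abs,
          Real.cosh_eq]
        have := Real.exp_pos (-(l * |(i : ℝ)|))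
        linarith
      have h2 : Real.exp (l * j) ≤ 2 * Real.cosh (l * i) :=
        (Real.exp_le_exp.2 (mul_le_mul_of_nonneg_left
          (by exact_mod_cast hi.le) hl)).trans h1
      have := mul_le_mul_of_nonneg_right h2 (Real.exp_pos (-l * j)).le
      rwa [← Real.exp_add, show l * (j : ℝ) + -l * j = 0 by ring, Real.exp_zero] at this
  | m + 1, i => by
      have a1 := qc_le j hl m (i + 1)
      have a2 := qc_le j hl m (i - 1)
      rw [qc]
      refine (div_le_div_of_nonneg_right (add_le_add a1 a2) zero_le_two).trans (le_of_eq ?_)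
      push_cast
      rw [pow_succ, mul_add l, mul_sub l, mul_one, Real.cosh_add, Real.cosh_sub]
      ring

theorem qc_carne {j m : ℕ} (hm : 1 ≤ m) :
    qc j m 0 ≤ 2 * Real.exp (-(j : ℝ) ^ 2 / (2 * m)) := by
  have hm' : (0 : ℝ) < m := by exact_mod_cast hm
  set l : ℝ := (j : ℝ) / m with hl
  refine (qc_le j (by positivity : 0 ≤ l) m 0).trans ?_
  rw [Int.cast_zero, mul_zero, Real.cosh_zero, mul_one, mul_assoc]
  refine mul_le_mul_of_nonneg_left ?_ (by norm_num)
  have hc : Real.cosh l ^ m ≤ Real.exp (m * (l ^ 2 / 2)) := by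
    rw [Real.exp_nat_mul]
    exact pow_le_pow_left₀ (Real.cosh_pos (x := l)).le (Real.cosh_le_exp_half_sq l) m
  refine (mul_le_mul_of_nonneg_right hc (Real.exp_pos _).le).trans (le_of_eq ?_)
  rw [← Real.exp_add]
  congr 1
  rw [hl]
  field_simp
  ring

theorem trn_add_res (j : ℕ) (f : Γ → ℝ) : ∀ (m : ℕ) (i : ℤ) (z : Γ),
    trn S j f m i z + res S j f m i z = (op S)^[m] (tz S f i) z
  | 0, i, z => by rw [trn, res]; split_ifs <;> simp
  | m + 1, i, z => by
      have e : op S (tz S f i) = fun w => (1 / 2) * (tz S f (i + 1) w + tz S f (i - 1) w) := by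
        funext w; rw [op_tz]; ring
      rw [Function.iterate_succ_apply, e,
        iterate_op_smul m (1 / 2) (fun w => tz S f (i + 1) w + tz S f (i - 1) w), iterate_op_add]
      dsimp only
      rw [← trn_add_res j f m, ← trn_add_res j f m]
      simp only [trn, res]
      ring

theorem trn_supp (hS : Gens S) {f : Γ → ℝ} {R : ℕ} (hf : Supp S f R) (j : ℕ) :
    ∀ (m : ℕ) (i : ℤ), Supp S (trn S j f m i) (R + j)
  | 0, i => by
      rw [trn]; split_ifs with h
      · exact fun z _ => rfl
      · exact (chebv_supp hS hf _).1.mono (by omega)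
  | m + 1, i => fun z hz => by
      simp [trn, trn_supp hS hf j m (i + 1) z hz, trn_supp hS hf j m (i - 1) z hz]

theorem dot_avg_le {R : ℕ} {u v : Γ → ℝ} {a b F : ℝ} (ha : 0 ≤ a) (hb : 0 ≤ b) (hF : 0 ≤ F)
    (hu : dot S R u u ≤ a ^ 2 * F) (hv : dot S R v v ≤ b ^ 2 * F) :
    dot S R (fun z => (u z + v z) / 2) (fun z => (u z + v z) / 2) ≤ ((a + b) / 2) ^ 2 * F := by
  have hcs : (dot S R u v) ^ 2 ≤ dot S R u u * dot S R v v := by
    simpa only [dot, ← sq] using sum_mul_sq_le_sq_mul_sq (ball S R) u v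
  have huv : dot S R u v ≤ a * b * F := by
    refine (le_abs_self _).trans (abs_le_of_sq_le_sq ?_ (by positivity))
    have hv0 : 0 ≤ dot S R v v := sum_nonneg fun z _ => mul_self_nonneg _
    calc _ ≤ _ := hcs
      _ ≤ (a ^ 2 * F) * (b ^ 2 * F) := mul_le_mul hu hv hv0 (by positivity)
      _ = _ := by ring
  have e : dot S R (fun z => (u z + v z) / 2) (fun z => (u z + v z) / 2)
      = (dot S R u u + 2 * dot S R u v + dot S R v v) / 4 := by
    simp only [dot, mul_sum, ← sum_add_distrib, sum_div]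
    exact sum_congr rfl fun z _ => by ring
  rw [e]
  nlinarith

theorem res_norm (hS : Gens S) (hne : S.Nonempty) {f : Γ → ℝ} {R₀ R : ℕ} (hf : Supp S f R₀)
    (j : ℕ) : ∀ (m : ℕ) (i : ℤ), R₀ + i.natAbs + m + 2 ≤ R →
      dot S R (res S j f m i) (res S j f m i) ≤ qc j m i ^ 2 * dot S R f f
  | 0, i, hR => by
      rw [res, qc]
      split_ifs with h
      · simpa [tz] using chebv_norm hS hne hf _ (by omega : R₀ + i.natAbs + 2 ≤ R)
      · simp [dot]
  | m + 1, i, hR => by
      have h1 := res_norm hS hne hf (R := R) j m (i + 1) (by omega)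
      have h2 := res_norm hS hne hf (R := R) j m (i - 1) (by omega)
      exact dot_avg_le (qc_bounds j m _).1 (qc_bounds j m _).1
        (sum_nonneg fun z _ => mul_self_nonneg _) h1 h2

variable (S) in
/-- The truncated kernel. -/
noncomputable def ker (j m : ℕ) : Γ → ℝ := trn S j (fun z => if z = 1 then 1 else 0) m 0

variable (S) in
/-- Its correlation. -/
noncomputable def corr (j m : ℕ) (y : Γ) : ℝ :=
  ∑ u ∈ ball S j, ker S j m u * ker S j m (y⁻¹ * u)

theorem delta_supp : Supp S (fun z : Γ => if z = 1 then (1 : ℝ) else 0) 0 := fun z hz => by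
  simp only [ball, mem_singleton] at hz
  simp [hz]

theorem ker_supp (hS : Gens S) (j m : ℕ) : Supp S (ker S j m) j := by
  have := trn_supp hS (delta_supp (S := S)) j m 0
  rwa [Nat.zero_add] at this

theorem ker_abs_le (hS : Gens S) (hne : S.Nonempty) (j m : ℕ) (z : Γ) : |ker S j m z| ≤ 1 := by
  suffices h : ∀ m i, |trn S j (fun z => if z = 1 then 1 else 0) m i z| ≤ 1 from h m 0
  intro m
  induction m with
  | zero =>
    intro i
    rw [trn]
    split_ifs with hi
    · simp
    set T := (chebv S (fun z : Γ => if z = 1 then (1 : ℝ) else 0) i.natAbs).1 with hT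
    show |T z| ≤ 1
    by_cases hz : z ∈ ball S (i.natAbs + 2)
    swap
    · rw [hT, ((chebv_supp hS (delta_supp (S := S)) _).1.mono (by omega)) z hz, abs_zero]
      exact zero_le_one
    have h := chebv_norm hS hne (delta_supp (S := S)) i.natAbs (R := i.natAbs + 2) (by omega)
    have h1 : T z * T z ≤ dot S (i.natAbs + 2) T T :=
      single_le_sum (f := fun w => T w * T w) (fun w _ => mul_self_nonneg _) hz
    have h2 : dot S (i.natAbs + 2) (fun z : Γ => if z = 1 then (1 : ℝ) else 0)
        (fun z => if z = 1 then 1 else 0) = 1 := by simp [dot, one_mem_ball]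
    rw [← hT, h2] at h
    rw [abs_le]
    constructor <;> nlinarith
  | succ m ih =>
    intro i
    simp only [trn]
    obtain ⟨a, b⟩ := abs_le.1 (ih (i + 1))
    obtain ⟨c, d⟩ := abs_le.1 (ih (i - 1))
    exact abs_le.2 ⟨by linarith, by linarith⟩

theorem sum_supp {u : Γ → ℝ} {R R' : ℕ} (hu : Supp S u R) (h : R ≤ R') :
    ∑ z ∈ ball S R', u z = ∑ z ∈ ball S R, u z :=
  (sum_subset (ball_mono h) fun z _ hz => hu z hz).symm

theorem sum_op (hS : Gens S) (hne : S.Nonempty) {u : Γ → ℝ} {R : ℕ} (hu : Supp S u R) :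
    ∑ z ∈ ball S (R + 1), op S u z = ∑ z ∈ ball S R, u z := by
  have key : ∀ a : {a // a ∈ S}, ∑ z ∈ ball S (R + 1), u (nb S z a) = ∑ z ∈ ball S R, u z := by
    intro a
    rw [← sum_image (f := u) (g := fun z => nb S z a) fun x _ y _ h => mul_right_cancel h]
    refine (sum_subset (fun w hw => mem_image.2 ⟨w * a.1⁻¹, mul_mem_ball_succ hw (hS.inv _ a.2),
      by simp [nb]⟩) fun z _ hz => hu z hz).symm
  simp only [op]
  rw [← sum_div, sum_comm, sum_congr rfl fun a _ => key a, sum_const, card_univ, Fintype.card_coe,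
    nsmul_eq_mul, mul_div_assoc, mul_div_cancel₀]
  exact_mod_cast hne.card_pos.ne'

theorem sum_ker (hS : Gens S) (hne : S.Nonempty) (j m : ℕ) :
    ∑ z ∈ ball S j, ker S j m z = 1 - qc j m 0 := by
  set f : Γ → ℝ := fun z => if z = 1 then 1 else 0 with hf
  have hd : Supp S f 0 := delta_supp
  have hsup : ∀ i, Supp S (chebv S f i).1 i := fun i => by
    simpa using (chebv_supp hS hd i).1
  have hcheb : ∀ i, ∑ z ∈ ball S i, (chebv S f i).1 z = 1
      ∧ ∑ z ∈ ball S (i + 1), (chebv S f (i + 1)).1 z = 1 := by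
    intro i
    induction i with
    | zero =>
      have h0 : ∑ z ∈ ball S 0, (chebv S f 0).1 z = 1 := by simp [chebv, ball, hf]
      refine ⟨h0, ?_⟩
      rw [sum_congr rfl fun z _ => chebv_one f z, sum_op hS hne hd]
      exact h0
    | succ i ih =>
      refine ⟨ih.2, ?_⟩
      rw [sum_congr rfl fun z _ => chebv_two f i z, sum_sub_distrib, ← mul_sum,
        sum_op hS hne (hsup (i + 1)), sum_supp (hsup i) (by omega), ih.1, ih.2]
      norm_num
  suffices h : ∀ m i, ∑ z ∈ ball S j, trn S j f m i z = 1 - qc j m i from h m 0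
  intro m
  induction m with
  | zero =>
    intro i
    rw [trn, qc]
    split_ifs with hi
    · simp
    · rw [show (∑ z ∈ ball S j, tz S f i z) = ∑ z ∈ ball S i.natAbs, (chebv S f i.natAbs).1 z from
        sum_supp (hsup _) (by omega), (hcheb _).1]
      ring
  | succ m ih =>
    intro i
    simp only [trn, qc, ← sum_div, sum_add_distrib, ih]
    ring

theorem op_translate (K : Finset Γ) (φ : Γ → ℝ) :
    op S (fun u => ∑ x ∈ K, φ (x⁻¹ * u)) = fun u => ∑ x ∈ K, op S φ (x⁻¹ * u) := by
  funext u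
  simp only [op, ← sum_div]
  rw [sum_comm]
  simp [nb, mul_assoc]

theorem chebv_translate (K : Finset Γ) : ∀ (i : ℕ) (u : Γ),
    (chebv S (fun z => if z ∈ K then (1 : ℝ) else 0) i).1 u
      = ∑ x ∈ K, (chebv S (fun z : Γ => if z = 1 then (1 : ℝ) else 0) i).1 (x⁻¹ * u)
    ∧ (chebv S (fun z => if z ∈ K then (1 : ℝ) else 0) i).2 u
      = ∑ x ∈ K, (chebv S (fun z : Γ => if z = 1 then (1 : ℝ) else 0) i).2 (x⁻¹ * u)
  | 0, u => by simp [chebv, inv_mul_eq_one, sum_ite_eq']
  | i + 1, u => by
      have e1 := funext fun v => (chebv_translate K i v).1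
      have e2 := funext fun v => (chebv_translate K i v).2
      simp only [chebv, e1, e2, op_translate, sum_add_distrib, sum_sub_distrib, and_self]

/-- The truncated kernel spreads a finite set no more than the walk, up to the high degrees. -/
theorem sum_corr_le (hS : Gens S) (hne : S.Nonempty) {K : Finset Γ} {R₀ : ℕ}
    (hK : K ⊆ ball S R₀) (j m : ℕ) :
    ∑ x ∈ K, ∑ y ∈ K, corr S j m (x⁻¹ * y)
      ≤ 2 * (pairs S K (2 * m) / (S.card : ℝ) ^ (2 * m)) + 2 * qc j m 0 ^ 2 * K.card := by
  set f : Γ → ℝ := fun z => if z ∈ K then 1 else 0 with hf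
  set R := R₀ + j + m + 2 with hR
  have hfs : Supp S f R₀ := fun z hz => if_neg fun h => hz (hK h)
  have htr : ∀ m i u, trn S j f m i u
      = ∑ x ∈ K, trn S j (fun z : Γ => if z = 1 then (1 : ℝ) else 0) m i (x⁻¹ * u) := by
    intro m
    induction m with
    | zero =>
      intro i u
      simp only [trn]
      split_ifs
      · simp
      · exact (chebv_translate K _ u).1
    | succ m ih =>
      intro i u
      simp only [trn, ih, ← sum_div, sum_add_distrib]
  have hker : ∀ u, trn S j f m 0 u = ∑ x ∈ K, ker S j m (x⁻¹ * u) := htr m 0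
  have e1 : ∑ x ∈ K, ∑ y ∈ K, corr S j m (x⁻¹ * y)
      = dot S R (trn S j f m 0) (trn S j f m 0) := by
    simp only [dot, hker, sum_mul_sum]
    rw [sum_comm (s := ball S R)]
    refine sum_congr rfl fun x hx => ?_
    rw [sum_comm (s := ball S R)]
    refine sum_congr rfl fun y _ => ?_
    rw [corr]
    refine Eq.trans (b := ∑ v ∈ (ball S j).image (x * ·),
      ker S j m (x⁻¹ * v) * ker S j m (y⁻¹ * v)) ?_ ?_
    · rw [sum_image fun a _ b _ h => mul_left_cancel h]
      exact sum_congr rfl fun v _ => by simp [mul_assoc]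
    refine sum_subset (fun v hv => ?_) fun v _ hv => ?_
    · obtain ⟨b, hb, rfl⟩ := mem_image.1 hv
      exact ball_mono (by omega) (mem_ball_add (hK hx) hb)
    · rw [ker_supp hS j m (x⁻¹ * v) fun h => hv (mem_image.2 ⟨_, h, mul_inv_cancel_left x v⟩),
        zero_mul]
  have e2 : ∀ z, (op S)^[m] f z = into S K m z / (S.card : ℝ) ^ m := by
    suffices h : ∀ m z, (op S)^[m] f z = (∑ x ∈ K, walkCount (nb S) m x z) / (S.card : ℝ) ^ m by
      intro z
      rw [h, into, sum_congr rfl fun x _ => walkCount_symm hS m x z]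
    intro m
    induction m with
    | zero => intro z; simp [hf, walkCount, sum_ite_eq]
    | succ m ih =>
      intro z
      rw [Function.iterate_succ_apply']
      simp only [op, ih, ← sum_div]
      rw [div_div, pow_succ, sum_comm]
      rfl
  have e3 : dot S R ((op S)^[m] f) ((op S)^[m] f) = pairs S K (2 * m) / (S.card : ℝ) ^ (2 * m) := by
    have hp : pairs S K (m + m) = ∑ z ∈ ball S R, into S K m z * into S K m z := by
      simp only [pairs, into, sum_mul_sum]
      rw [sum_comm (s := ball S R)]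
      refine sum_congr rfl fun x hx => ?_
      rw [sum_comm (s := ball S R)]
      refine sum_congr rfl fun y _ => ?_
      rw [walkCount_ball m (T := ball S R) (fun b hb => ball_mono (by omega) (mem_ball_add (hK hx) hb))]
      exact sum_congr rfl fun z _ => by rw [walkCount_symm hS m y z]
    simp only [dot, e2, div_mul_div_comm, ← sum_div, two_mul, pow_add, hp]
  have e4 : dot S R f f = K.card := by
    simp only [dot, hf, ← sq, ite_pow, one_pow, ne_eq, OfNat.ofNat_ne_zero, not_false_eq_true,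
      zero_pow]
    rw [sum_ite_mem, inter_eq_right.2 (hK.trans (ball_mono (by omega)))]
    simp
  have h5 := res_norm hS hne hfs j m 0 (R := R) (by simp; omega)
  rw [e4] at h5
  have key : dot S R (trn S j f m 0) (trn S j f m 0)
      ≤ 2 * dot S R ((op S)^[m] f) ((op S)^[m] f) + 2 * dot S R (res S j f m 0) (res S j f m 0) := by
    simp only [dot, mul_sum, ← sum_add_distrib]
    refine sum_le_sum fun z _ => ?_
    have h := trn_add_res (S := S) j f m 0 z
    rw [show tz S f 0 = f from rfl] at h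
    rw [show trn S j f m 0 z = (op S)^[m] f z - res S j f m 0 z by linarith]
    nlinarith [mul_self_nonneg ((op S)^[m] f z + res S j f m 0 z)]
  rw [e1]
  rw [e3] at key
  linarith

theorem pairs_le_card (hne : S.Nonempty) {K : Finset Γ} {R₀ : ℕ}
    (hK : K ⊆ ball S R₀) (i : ℕ) : pairs S K i / (S.card : ℝ) ^ i ≤ K.card := by
  have hd : (0 : ℝ) < S.card := by exact_mod_cast hne.card_pos
  rw [div_le_iff₀ (pow_pos hd i), pairs]
  refine (sum_le_sum fun x hx => (sum_le_sum_of_subset_of_nonneg
    (hK.trans (ball_mono (Nat.le_add_right R₀ i))) fun y _ _ => walkCount_nonneg _ _ _ _).trans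
    (walkCount_sum i fun b hb => mem_ball_add (hK hx) hb).le).trans (le_of_eq ?_)
  rw [sum_const, nsmul_eq_mul]

end Vale.Agent.P151
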