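import Vale.Agent.P151.Key
import Vale.Agent.P151.Trunc

/-!
# The recursion for the cluster tail through a truncated power of the walk
-/

namespace Vale.Agent.P151

open Finset Vale.Agent.P165

variable {Γ : Type} [Group Γ] [DecidableEq Γ] {S : Finset Γ}

/-- The correlation collects the pairs of the kernel inside a set. -/
theorem sum_pairs_ker (hS : Gens S) (j m : ℕ) (K : Finset Γ) :
    ∑ z ∈ ball S j, ∑ z' ∈ ball S j,
        ker S j m z⁻¹ * ker S j m z'⁻¹ * ind (z⁻¹ * z' ∈ K)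
      = ∑ y ∈ K, corr S j m y := by
  simp only [corr]
  rw [sum_comm (s := K)]
  refine sum_nbij' (fun z => z⁻¹) (fun z => z⁻¹) (fun z hz => inv_mem_ball hS hz)
    (fun z hz => inv_mem_ball hS hz) (fun z _ => inv_inv z) (fun z _ => inv_inv z) fun z _ => ?_
  set u := z⁻¹ with hu
  have e1 : ∑ z' ∈ ball S j, ker S j m u * ker S j m z'⁻¹ * ind (u * z' ∈ K)
      = ∑ z' ∈ (ball S j).filter (fun z' => u * z' ∈ K), ker S j m u * ker S j m z'⁻¹ := by
    rw [sum_filter]
    refine sum_congr rfl fun z' _ => ?_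
    by_cases h : u * z' ∈ K <;> simp [ind, h]
  have e2 : ∑ y ∈ K, ker S j m u * ker S j m (y⁻¹ * u)
      = ∑ y ∈ K.filter (fun y => u⁻¹ * y ∈ ball S j), ker S j m u * ker S j m (y⁻¹ * u) := by
    refine (sum_filter_of_ne fun y _ hne => ?_).symm
    by_contra hy
    refine hne (mul_eq_zero_of_right _ (ker_supp hS j m _ fun h => hy ?_))
    have := inv_mem_ball hS h
    simpa [hu] using this
  rw [e1, e2]
  refine sum_nbij' (fun z' => u * z') (fun y => u⁻¹ * y)
    (fun a ha => by simp only [mem_filter] at ha ⊢; exact ⟨ha.2, by simpa using ha.1⟩)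
    (fun a ha => by simp only [mem_filter] at ha ⊢; exact ⟨ha.2, by simpa using ha.1⟩)
    (fun a _ => by simp) (fun a _ => by simp) fun a _ => by simp

/-- Connection by a cluster of bounded size is invariant under translations. -/
theorem avg_conn (hS : Gens S) (p : ℝ) {z z' : Γ} {n R M T : ℕ} (hz : z ∈ ball S T)
    (hM : T + R + 1 ≤ M) :
    avg (eball S 1 M) p (fun η => ind (z' ∈ cls η z ∧ n ≤ csize η z ∧ csize η z ≤ R))
      = avg (eball S 1 M) p
          (fun η => ind (z⁻¹ * z' ∈ cls η 1 ∧ n ≤ csize η 1 ∧ csize η 1 ≤ R)) := by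
  set E := eball S (1 : Γ) M with hE
  have hv : Valid S E := valid_eball hS (Subset.refl _)
  have hloc : ∀ x y η, η ⊆ E → ind (y ∈ cls η x ∧ n ≤ csize η x ∧ csize η x ≤ R)
      = ind (y ∈ cls (η ∩ eball S x (R + 1)) x ∧ n ≤ csize (η ∩ eball S x (R + 1)) x
        ∧ csize (η ∩ eball S x (R + 1)) x ≤ R) := by
    intro x y η hη
    set η' := η ∩ eball S x (R + 1) with hη'
    by_cases h' : csize η' x ≤ R
    · have e := cls_inter (R := R + 1) hS (fun e he => hv e (hη he)) (E := eball S x (R + 1))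
        (x := x) inter_subset_right (Or.inr (by rw [← hη']; omega))
      rw [← hη'] at e
      simp only [csize, e]
    · have h2 : csize η' x ≤ csize η x := card_le_card (cls_mono inter_subset_left x)
      rw [ind_false fun h => h' (h2.trans h.2.2), ind_false fun h => h' h.2.2]
  refine avg_translate (x := z) (y := 1) (R := R + 1) (eball_one hz (by omega))
    (eball_one (one_mem_ball (S := S) 0) (by omega)) p (hloc z z') (hloc 1 (z⁻¹ * z'))
    fun η _ => ?_
  have e1 := cls_shift z 1 η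
  have e2 := csize_shift z 1 η
  rw [mul_one] at e1 e2
  simp only [e2, shift_one]
  refine ind_congr (and_congr_left fun _ => ?_)
  rw [e1]
  exact ⟨fun h => by obtain ⟨w, hw, rfl⟩ := mem_image.1 h; simpa using hw,
    fun h => mem_image.2 ⟨_, h, mul_inv_cancel_left z z'⟩⟩

/-- Two large vertices are apart or in one cluster of bounded size. -/
theorem pair_split (n R : ℕ) (η : Finset (Sym2 Γ)) (z z' : Γ) (c : ℝ) (hc : |c| ≤ 1) :
    c * (ind (n ≤ csize η z) * ind (n ≤ csize η z'))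
      ≤ ind (Apart n η z z') + ind (R ≤ csize η z)
        + c * ind (z' ∈ cls η z ∧ n ≤ csize η z ∧ csize η z ≤ R) := by
  obtain ⟨hc1, hc2⟩ := abs_le.1 hc
  have a1 := ind_nonneg (Apart n η z z')
  have a2 := ind_nonneg (R ≤ csize η z)
  rw [← ind_and]
  by_cases h : n ≤ csize η z ∧ n ≤ csize η z'
  · rw [ind_true h, mul_one]
    by_cases hx : z' ∈ cls η z
    · by_cases hR : csize η z ≤ R
      · rw [ind_true (show z' ∈ cls η z ∧ n ≤ csize η z ∧ csize η z ≤ R from ⟨hx, h.1, hR⟩)]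
        linarith
      · rw [ind_true (show R ≤ csize η z by omega),
          ind_false (show ¬(z' ∈ cls η z ∧ n ≤ csize η z ∧ csize η z ≤ R) from fun h' => hR h'.2.2)]
        linarith
    · rw [ind_true (show Apart n η z z' from ⟨hx, h.1, h.2⟩),
        ind_false (show ¬(z' ∈ cls η z ∧ n ≤ csize η z ∧ csize η z ≤ R) from fun h' => hx h'.1)]
      linarith
  · rw [ind_false h, ind_false (show ¬(z' ∈ cls η z ∧ n ≤ csize η z ∧ csize η z ≤ R) from fun h' =>
      h ⟨h'.2.1, h'.2.1.trans (le_of_eq (congrArg Finset.card (cls_eq (mem_cls.1 h'.1))))⟩)]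
    linarith

/-- A pair is joined in one cluster, or costs the gluing. -/
theorem pair_le (hS : Gens S) {p : ℝ} (h0 : 0 < p) (h1 : p < 1) {n : ℕ} (hn : 1 ≤ n)
    {R M j : ℕ} (hM : 3 * j + 2 * R + 1 ≤ M) {z z' : Γ} (hz : z ∈ ball S j) (hz' : z' ∈ ball S j)
    {c : ℝ} (hc : |c| ≤ 1) :
    avg (eball S 1 M) p (fun η => c * (ind (n ≤ csize η z) * ind (n ≤ csize η z')))
      ≤ (2 * j : ℕ) * p⁻¹ ^ (2 * j) *
          (80 * Real.sqrt (2 * S.card + 1) / (p * (1 - p)) / Real.sqrt n + 2 * tail S p R)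
        + tail S p R
        + c * avg (eball S 1 M) p
            (fun η => ind (z⁻¹ * z' ∈ cls η 1 ∧ n ≤ csize η 1 ∧ csize η 1 ≤ R)) := by
  obtain ⟨l, hl, hly⟩ := exists_word (mem_ball_add (inv_mem_ball hS hz) hz')
  have ha := apart_le hS h0 h1 hn R (M := M) l z j hz (by omega)
  rw [hly, mul_inv_cancel_left] at ha
  have hBnn : 0 ≤ 80 * Real.sqrt (2 * S.card + 1) / (p * (1 - p)) / Real.sqrt n + 2 * tail S p R := by
    have : 0 < 1 - p := sub_pos.2 h1
    have := tail_nonneg (S := S) h0.le h1.le R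
    positivity
  have hmono : (l.length : ℝ) * p⁻¹ ^ l.length ≤ (2 * j : ℕ) * p⁻¹ ^ (2 * j) :=
    mul_le_mul (by exact_mod_cast (by omega : l.length ≤ 2 * j))
      (pow_le_pow_right₀ ((one_le_inv₀ h0).2 h1.le) (by omega)) (by positivity) (by positivity)
  have ha' := ha.trans (mul_le_mul_of_nonneg_right hmono hBnn)
  refine (avg_mono _ h0.le h1.le fun η _ => pair_split n R η z z' c hc).trans ?_
  rw [avg_add, avg_add, avg_mul, avg_conn hS p hz (by omega),
    tail_eq hS (valid_eball hS (Subset.refl _)) (eball_one hz (by omega) :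
      eball S z R ⊆ eball S 1 M) p]
  linarith

/-- The pairs in one cluster are few unless it is very large. -/
theorem cluster_le (hS : Gens S) (hne : S.Nonempty) {p : ℝ} (h0 : 0 < p) (h1 : p < 1)
    {n N J j m R M : ℕ} (hM : 4 * R + 4 * N + 10 ≤ M) (hm : m ≤ J) (hJ : 1 ≤ J) :
    avg (eball S 1 M) p (fun η => ind (n ≤ csize η 1 ∧ csize η 1 ≤ R) *
        ∑ y ∈ cls η 1, corr S j m y)
      ≤ 2 * ((N : ℝ) * step S (2 * J) 1 1) ^ ((m : ℝ) / J) + 2 * qc j m 0 ^ 2
        + 2 * tail S p (N + 1) := by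
  set U := ((N : ℝ) * step S (2 * J) 1 1) ^ ((m : ℝ) / J) with hU
  set q := qc j m 0 with hq
  set E := eball S (1 : Γ) M with hE
  have hv : Valid S E := valid_eball hS (Subset.refl _)
  have hstep0 : 0 ≤ step S (2 * J) (1 : Γ) 1 :=
    div_nonneg (walkCount_nonneg _ _ _ _) (by positivity)
  have hU0 : 0 ≤ U := Real.rpow_nonneg (mul_nonneg (Nat.cast_nonneg _) hstep0) _
  set G : Finset (Sym2 Γ) → ℝ := fun η => ∑ y ∈ cls η 1, corr S j m y with hG
  set g : ℕ → ℝ := fun i => ind (n ≤ i ∧ i ≤ R) with hg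
  show avg E p (fun η => g (csize η 1) * G η) ≤ _
  have hh : ∀ η, G η = ∑ y ∈ cls η 1, corr S j m ((1 : Γ)⁻¹ * y) := fun η => by simp [hG]
  simp only [hh]
  rw [mass hS p (R := R) (M := M) (by omega) (g := g)
    (fun i hi => ind_false fun h => by omega)
    (h := fun η x => ∑ y ∈ cls η x, corr S j m (x⁻¹ * y))
    (fun z η x => by
      rw [cls_shift, sum_image fun a _ b _ h => mul_left_cancel h]
      exact sum_congr rfl fun y _ => by simp [mul_assoc])
    (fun η x hv hx => by
      rw [cls_inter (R := 2 * R) hS hv inter_subset_right (Or.inl (by omega))])]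
  have hT := tail_eq hS hv (eball_one (one_mem_ball (S := S) 0) (by omega) :
    eball S (1 : Γ) (N + 1) ⊆ E) p
  rw [← hT]
  refine le_trans (avg_mono E h0.le h1.le
    (g := fun η => (2 * U + 2 * q ^ 2) + 2 * ind (N + 1 ≤ csize η 1)) fun η hη => ?_) ?_
  · set K := cls η 1 with hK
    have hk0 : (0 : ℝ) < csize η 1 := by exact_mod_cast csize_pos η 1
    by_cases hgi : n ≤ csize η 1 ∧ csize η 1 ≤ R
    swap
    · simp only [hg]
      rw [ind_false hgi, zero_div, zero_mul]
      positivity [ind_nonneg (N + 1 ≤ csize η 1)]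
    simp only [hg]
    rw [ind_true hgi, one_div, inv_mul_le_iff₀ hk0]
    have hKb : K ⊆ ball S (csize η 1) := fun y hy => by
      have := cls_subset_ball hS (valid_eball hS hη) hy
      rw [inv_one, one_mul] at this
      exact ball_mono (by omega) this
    have e : ∑ x ∈ K, ∑ y ∈ cls η x, corr S j m (x⁻¹ * y)
        = ∑ x ∈ K, ∑ y ∈ K, corr S j m (x⁻¹ * y) :=
      sum_congr rfl fun x hx => by rw [hK, ← cls_eq (mem_cls.1 hx)]
    rw [e]
    refine (sum_corr_le hS hne hKb j m).trans ?_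
    have hk : (K.card : ℝ) = csize η 1 := rfl
    have hc := pairs_le_card hne hKb (2 * m)
    rw [hk] at hc ⊢
    by_cases hN : N + 1 ≤ csize η 1
    · rw [ind_true hN]
      nlinarith
    · rw [ind_false hN]
      have h2 := pairs_le hS hne (K := K) ⟨1, self_mem_cls η 1⟩ hm hJ
      have h3 : (((K.card : ℝ)) * step S (2 * J) 1 1) ^ ((m : ℝ) / J) ≤ U := by
        refine Real.rpow_le_rpow (mul_nonneg (Nat.cast_nonneg _) hstep0) ?_ (by positivity)
        exact mul_le_mul_of_nonneg_right (by exact_mod_cast (by omega : csize η 1 ≤ N)) hstep0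
      have h4 := h2.trans (mul_le_mul_of_nonneg_left h3 (Nat.cast_nonneg _))
      rw [hk] at h4
      nlinarith
  · rw [avg_add, avg_const, avg_mul]

/-- The main recursion, without a hypothesis on the speed. -/
theorem spread_recursion (hS : Gens S) (hne : S.Nonempty) {p : ℝ} (h0 : 0 < p) (h1 : p < 1)
    (hlim : Filter.Tendsto (fun i => tail S p i) Filter.atTop (nhds 0))
    {n N J j m : ℕ} (hn : 1 ≤ n) (hm : m ≤ J) (hJ : 1 ≤ J) :
    ((1 - qc j m 0) * tail S p n) ^ 2
      ≤ ((ball S j).card : ℝ) ^ 2 * ((2 * j : ℕ) * p⁻¹ ^ (2 * j) *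
            (80 * Real.sqrt (2 * S.card + 1) / (p * (1 - p)) / Real.sqrt n))
        + 2 * tail S p (N + 1)
        + 2 * ((N : ℝ) * step S (2 * J) 1 1) ^ ((m : ℝ) / J) + 2 * qc j m 0 ^ 2 := by
  set B₀ := 80 * Real.sqrt (2 * S.card + 1) / (p * (1 - p)) / Real.sqrt n with hB₀
  set U := ((N : ℝ) * step S (2 * J) 1 1) ^ ((m : ℝ) / J) with hU
  set q := qc j m 0 with hq
  set V : ℝ := ((ball S j).card : ℝ) ^ 2 with hV
  have main : ∀ R : ℕ, ((1 - q) * tail S p n) ^ 2
      ≤ V * ((2 * j : ℕ) * p⁻¹ ^ (2 * j) * (B₀ + 2 * tail S p R)) + 2 * tail S p (N + 1)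
        + 2 * U + 2 * q ^ 2 + V * tail S p R := by
    intro R
    set M := 4 * R + 4 * N + 4 * j + n + 10 with hM
    set E := eball S (1 : Γ) M with hE
    have hv : Valid S E := valid_eball hS (Subset.refl _)
    have hvabs : ∀ z, |ker S j m z⁻¹| ≤ 1 := fun z => ker_abs_le hS hne j m _
    have hsum : ∑ z ∈ ball S j, ker S j m z⁻¹ = 1 - q := by
      rw [hq, ← sum_ker hS hne j m]
      exact sum_nbij' (fun z => z⁻¹) (fun z => z⁻¹) (fun z hz => inv_mem_ball hS hz)
        (fun z hz => inv_mem_ball hS hz) (fun z _ => inv_inv z) (fun z _ => inv_inv z)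
        (fun z _ => rfl)
    have hmean : avg E p (fun η => ∑ z ∈ ball S j, ker S j m z⁻¹ * ind (n ≤ csize η z))
        = (1 - q) * tail S p n := by
      rw [avg_sum, ← hsum, sum_mul]
      exact sum_congr rfl fun z hz => by
        rw [avg_mul, tail_eq hS hv (eball_one hz (by omega) : eball S z n ⊆ E) p]
    have hvar : ((1 - q) * tail S p n) ^ 2
        ≤ avg E p (fun η => (∑ z ∈ ball S j, ker S j m z⁻¹ * ind (n ≤ csize η z)) ^ 2) := by
      set c := (1 - q) * tail S p n
      have h := avg_nonneg E h0.le h1.le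
        (f := fun η => (∑ z ∈ ball S j, ker S j m z⁻¹ * ind (n ≤ csize η z) - c) ^ 2)
        fun η _ => sq_nonneg _
      have e : (fun η => (∑ z ∈ ball S j, ker S j m z⁻¹ * ind (n ≤ csize η z) - c) ^ 2) = fun η =>
          (∑ z ∈ ball S j, ker S j m z⁻¹ * ind (n ≤ csize η z)) ^ 2
            - (2 * c * (∑ z ∈ ball S j, ker S j m z⁻¹ * ind (n ≤ csize η z)) - c ^ 2) := by
        funext η; ring
      rw [e, avg_sub, avg_sub, avg_const, avg_mul, hmean] at h
      linarith
    have hpair : ∀ z ∈ ball S j, ∀ z' ∈ ball S j,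
        avg E p (fun η => ker S j m z⁻¹ * ker S j m z'⁻¹ *
            (ind (n ≤ csize η z) * ind (n ≤ csize η z')))
          ≤ (2 * j : ℕ) * p⁻¹ ^ (2 * j) * (B₀ + 2 * tail S p R) + tail S p R
            + ker S j m z⁻¹ * ker S j m z'⁻¹ *
              avg E p (fun η => ind (z⁻¹ * z' ∈ cls η 1 ∧ n ≤ csize η 1 ∧ csize η 1 ≤ R)) := by
      intro z hz z' hz'
      exact pair_le hS h0 h1 hn (by omega) hz hz'
        (by rw [abs_mul]; exact mul_le_one₀ (hvabs z) (abs_nonneg _) (hvabs z'))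
    have hcl : ∑ z ∈ ball S j, ∑ z' ∈ ball S j, ker S j m z⁻¹ * ker S j m z'⁻¹ *
          avg E p (fun η => ind (z⁻¹ * z' ∈ cls η 1 ∧ n ≤ csize η 1 ∧ csize η 1 ≤ R))
        = avg E p (fun η => ind (n ≤ csize η 1 ∧ csize η 1 ≤ R) *
            ∑ y ∈ cls η 1, corr S j m y) := by
      simp only [← avg_mul, ← avg_sum]
      refine avg_congr E p fun η _ => ?_
      rw [← sum_pairs_ker hS j m, mul_sum]
      refine sum_congr rfl fun z _ => ?_
      rw [mul_sum]
      refine sum_congr rfl fun z' _ => ?_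
      rw [ind_and]
      ring
    have hone := cluster_le hS hne h0 h1 (n := n) (j := j) (R := R) (M := M) (by omega : 4 * R + 4 * N + 10 ≤ M) hm hJ
    refine hvar.trans ?_
    calc avg E p (fun η => (∑ z ∈ ball S j, ker S j m z⁻¹ * ind (n ≤ csize η z)) ^ 2)
        = ∑ z ∈ ball S j, ∑ z' ∈ ball S j, avg E p (fun η => ker S j m z⁻¹ * ker S j m z'⁻¹ *
            (ind (n ≤ csize η z) * ind (n ≤ csize η z'))) := by
          simp only [← avg_sum]
          refine avg_congr E p fun η _ => ?_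
          rw [sq, sum_mul_sum]
          exact sum_congr rfl fun z _ => sum_congr rfl fun z' _ => by ring
      _ ≤ ∑ z ∈ ball S j, ∑ z' ∈ ball S j, ((2 * j : ℕ) * p⁻¹ ^ (2 * j) * (B₀ + 2 * tail S p R)
            + tail S p R + ker S j m z⁻¹ * ker S j m z'⁻¹ *
              avg E p (fun η => ind (z⁻¹ * z' ∈ cls η 1 ∧ n ≤ csize η 1 ∧ csize η 1 ≤ R))) :=
          sum_le_sum fun z hz => sum_le_sum fun z' hz' => hpair z hz z' hz'
      _ ≤ _ := by
          simp only [sum_add_distrib, sum_const, nsmul_eq_mul, hcl]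
          rw [hV, sq]
          linarith
  have ht : Filter.Tendsto (fun R => V * ((2 * j : ℕ) * p⁻¹ ^ (2 * j) * (B₀ + 2 * tail S p R))
      + 2 * tail S p (N + 1) + 2 * U + 2 * q ^ 2 + V * tail S p R) Filter.atTop
      (nhds (V * ((2 * j : ℕ) * p⁻¹ ^ (2 * j) * (B₀ + 2 * 0)) + 2 * tail S p (N + 1) + 2 * U
        + 2 * q ^ 2 + V * 0)) :=
    (((((hlim.const_mul 2).const_add B₀).const_mul _).const_mul V).add_const _ |>.add_const _
      |>.add_const _).add (hlim.const_mul V)
  have := ge_of_tendsto ht (Filter.Eventually.of_forall main)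
  simpa using this

end Vale.Agent.P151
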